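import Vale.Agent.P214.CLS.Field

/-!
# P214, block CLS, part 5: pointwise algebra for `U = N • hgt - ∑ W_j b_j`
-/

open Set Filter Topology MeasureTheory Metric
open scoped RealInnerProductSpace

set_option linter.all false

namespace Vale.Agent.P214.CLS

open Vale.Agent.P214.FV

variable {E : Type*} [NormedAddCommGroup E] [InnerProductSpace ℝ E] [FiniteDimensional ℝ E]

/-- the field -/
noncomputable def UF (T : Submodule ℝ E) (c : E) (N : E → ℝ)
    (W : Fin (Module.finrank ℝ E) → E → ℝ) (y : E) : E :=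
  N y • hgt T c y - ∑ j, W j y • stdOrthonormalBasis ℝ E j

section
variable {T : Submodule ℝ E} {c : E} {N : E → ℝ} {W : Fin (Module.finrank ℝ E) → E → ℝ}

lemma contDiff_UF (hN : ContDiff ℝ 2 N) (hW : ∀ j, ContDiff ℝ 2 (W j)) :
    ContDiff ℝ 2 (UF T c N W) := by
  refine (hN.smul (contDiff_hgt T c)).sub ?_
  exact ContDiff.sum fun j _ => (hW j).smul contDiff_const

lemma fderiv_UF (hN : ContDiff ℝ 2 N) (hW : ∀ j, ContDiff ℝ 2 (W j)) (y u : E) :
    fderiv ℝ (UF T c N W) y u = N y • co T u + (fderiv ℝ N y u) • hgt T c y -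
      ∑ j, (fderiv ℝ (W j) y u) • stdOrthonormalBasis ℝ E j := by
  have h1 : HasFDerivAt (fun y => N y • hgt T c y)
      (N y • co T + (fderiv ℝ N y).smulRight (hgt T c y)) y :=
    ((hN.differentiable (by norm_num) y).hasFDerivAt).smul (hasFDerivAt_hgt T c y)
  have h2 : HasFDerivAt (fun y => ∑ j, W j y • stdOrthonormalBasis ℝ E j)
      (∑ j, (fderiv ℝ (W j) y).smulRight (stdOrthonormalBasis ℝ E j)) y := by
    refine HasFDerivAt.fun_sum fun j _ => ?_
    exact (((hW j).differentiable (by norm_num) y).hasFDerivAt).smul_const _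
  have h3 : HasFDerivAt (UF T c N W) _ y := h1.sub h2
  rw [h3.fderiv]
  simp

lemma fderiv2_UF (hN : ContDiff ℝ 2 N) (hW : ∀ j, ContDiff ℝ 2 (W j)) (y u v : E) :
    fderiv ℝ (fderiv ℝ (UF T c N W)) y u v =
      (fderiv ℝ N y u) • co T v + (fderiv ℝ N y v) • co T u +
        (fderiv ℝ (fderiv ℝ N) y u v) • hgt T c y -
      ∑ j, (fderiv ℝ (fderiv ℝ (W j)) y u v) • stdOrthonormalBasis ℝ E j := by
  rw [fderiv2_apply (contDiff_UF hN hW)]
  have e0 : (fun z => fderiv ℝ (UF T c N W) z v) = fun y => N y • co T v +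
      (fderiv ℝ N y v) • hgt T c y - ∑ j, (fderiv ℝ (W j) y v) • stdOrthonormalBasis ℝ E j :=
    funext fun z => fderiv_UF hN hW z v
  rw [e0]
  have d0 : ∀ g : E → ℝ, ContDiff ℝ 2 g → HasFDerivAt (fun z => fderiv ℝ g z v)
      (fderiv ℝ (fun z => fderiv ℝ g z v) y) y := by
    intro g hg
    have h1 : ContDiff ℝ 1 (fderiv ℝ g) := hg.fderiv_right (by norm_num)
    exact ((h1.differentiable (by norm_num) y).clm_apply (differentiableAt_const v)).hasFDerivAt
  have h1 : HasFDerivAt (fun y => N y • co T v) ((fderiv ℝ N y).smulRight (co T v)) y :=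
    ((hN.differentiable (by norm_num) y).hasFDerivAt).smul_const _
  have h2 : HasFDerivAt (fun y => (fderiv ℝ N y v) • hgt T c y)
      ((fderiv ℝ N y v) • co T +
        (fderiv ℝ (fun z => fderiv ℝ N z v) y).smulRight (hgt T c y)) y :=
    (d0 N hN).smul (hasFDerivAt_hgt T c y)
  have h3 : HasFDerivAt (fun y => ∑ j, (fderiv ℝ (W j) y v) • stdOrthonormalBasis ℝ E j)
      (∑ j, (fderiv ℝ (fun z => fderiv ℝ (W j) z v) y).smulRight (stdOrthonormalBasis ℝ E j)) y :=
    HasFDerivAt.fun_sum fun j _ => (d0 (W j) (hW j)).smul_const _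
  have h4 := (h1.add h2).sub h3
  have h5 : fderiv ℝ (fun y => N y • co T v + (fderiv ℝ N y v) • hgt T c y -
      ∑ j, (fderiv ℝ (W j) y v) • stdOrthonormalBasis ℝ E j) y = _ := h4.fderiv
  rw [h5]
  simp only [ContinuousLinearMap.sub_apply, ContinuousLinearMap.add_apply,
    ContinuousLinearMap.smulRight_apply, ContinuousLinearMap.smul_apply,
    ContinuousLinearMap.sum_apply, ← fderiv2_apply hN, ← fderiv2_apply (hW _)]
  abel

variable {S : Submodule ℝ E} {q0 q1 l0 l1 D0 D1 : ℝ} {y : E}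

lemma norm_sum_basis_le {a : Fin (Module.finrank ℝ E) → ℝ} {b : ℝ} (ha : ∀ j, |a j| ≤ b) :
    ‖∑ j, a j • stdOrthonormalBasis ℝ E j‖ ≤ Module.finrank ℝ E * b := by
  refine (norm_sum_le _ _).trans ?_
  calc _ ≤ ∑ _j : Fin (Module.finrank ℝ E), b := by
        refine Finset.sum_le_sum fun j _ => ?_
        rw [norm_smul, (stdOrthonormalBasis ℝ E).norm_eq_one, mul_one]
        exact ha j
    _ = _ := by simp

/-- the error part of `DU` -/
lemma norm_err_le (hq0 : ‖fderiv ℝ N y‖ ≤ q0) (hq1 : ∀ j, ‖fderiv ℝ (W j) y‖ ≤ q1) (u : E) :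
    ‖(fderiv ℝ N y u) • hgt T c y - ∑ j, (fderiv ℝ (W j) y u) • stdOrthonormalBasis ℝ E j‖ ≤
      (q0 * ‖hgt T c y‖ + Module.finrank ℝ E * q1) * ‖u‖ := by
  have h1 : |fderiv ℝ N y u| ≤ q0 * ‖u‖ := by
    rw [← Real.norm_eq_abs]
    exact ((fderiv ℝ N y).le_opNorm u).trans (by gcongr)
  have h2 : ∀ j, |fderiv ℝ (W j) y u| ≤ q1 * ‖u‖ := by
    intro j
    rw [← Real.norm_eq_abs]
    refine ((fderiv ℝ (W j) y).le_opNorm u).trans ?_
    have := hq1 j
    gcongr
  calc _ ≤ ‖(fderiv ℝ N y u) • hgt T c y‖ +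
        ‖∑ j, (fderiv ℝ (W j) y u) • stdOrthonormalBasis ℝ E j‖ := norm_sub_le _ _
    _ ≤ (q0 * ‖u‖) * ‖hgt T c y‖ + Module.finrank ℝ E * (q1 * ‖u‖) := by
        refine add_le_add ?_ (norm_sum_basis_le h2)
        rw [norm_smul, Real.norm_eq_abs]
        gcongr
    _ = _ := by ring

lemma sum_norm_proj (S : Submodule ℝ E) :
    ∑ k, ‖S.starProjection (stdOrthonormalBasis ℝ E k)‖ ^ 2 = Module.finrank ℝ S :=
  SL.sum_norm_proj S

lemma sum_co_proj (T S : Submodule ℝ E) :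
    ∑ k, ‖co T (S.starProjection (stdOrthonormalBasis ℝ E k))‖ ^ 2 =
      tilt T S.starProjection := by
  rw [← hs_co_comp]; rfl

lemma sq_le_two {a b c : ℝ} (h : a ≤ b + c) (ha : 0 ≤ a) : a ^ 2 ≤ 2 * b ^ 2 + 2 * c ^ 2 := by
  have : a ^ 2 ≤ (b + c) ^ 2 := pow_le_pow_left₀ ha h 2
  nlinarith [sq_nonneg (b - c)]

lemma gsq_UF_le (hN : ContDiff ℝ 2 N) (hW : ∀ j, ContDiff ℝ 2 (W j))
    (hq0 : ‖fderiv ℝ N y‖ ≤ q0) (hq1 : ∀ j, ‖fderiv ℝ (W j) y‖ ≤ q1) :
    gsq (UF T c N W) S.starProjection y ≤ 2 * N y ^ 2 * tilt T S.starProjection +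
      2 * Module.finrank ℝ S * (q0 * ‖hgt T c y‖ + Module.finrank ℝ E * q1) ^ 2 := by
  rw [gsq_eq, ← sum_co_proj, ← sum_norm_proj, Finset.mul_sum, Finset.mul_sum, Finset.sum_mul,
    ← Finset.sum_add_distrib]
  refine Finset.sum_le_sum fun k _ => ?_
  rw [fderiv_UF hN hW, add_sub_assoc]
  have h1 := norm_err_le (T := T) (c := c) hq0 hq1 (S.starProjection (stdOrthonormalBasis ℝ E k))
  have h2 := sq_le_two ((norm_add_le _ _).trans (add_le_add le_rfl h1))
    (norm_nonneg (N y • co T (S.starProjection (stdOrthonormalBasis ℝ E k)) +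
      ((fderiv ℝ N y (S.starProjection (stdOrthonormalBasis ℝ E k))) • hgt T c y -
      ∑ j, (fderiv ℝ (W j) y (S.starProjection (stdOrthonormalBasis ℝ E k))) •
        stdOrthonormalBasis ℝ E j)))
  refine h2.trans (le_of_eq ?_)
  rw [norm_smul, Real.norm_eq_abs, mul_pow, sq_abs]
  ring

lemma tilt_le_gsq_UF (hN : ContDiff ℝ 2 N) (hW : ∀ j, ContDiff ℝ 2 (W j))
    (hq0 : ‖fderiv ℝ N y‖ ≤ q0) (hq1 : ∀ j, ‖fderiv ℝ (W j) y‖ ≤ q1) :
    N y ^ 2 * tilt T S.starProjection ≤ 2 * gsq (UF T c N W) S.starProjection y +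
      2 * Module.finrank ℝ S * (q0 * ‖hgt T c y‖ + Module.finrank ℝ E * q1) ^ 2 := by
  rw [gsq_eq, ← sum_co_proj, ← sum_norm_proj, Finset.mul_sum, Finset.mul_sum, Finset.mul_sum,
    Finset.sum_mul, ← Finset.sum_add_distrib]
  refine Finset.sum_le_sum fun k _ => ?_
  set u := S.starProjection (stdOrthonormalBasis ℝ E k) with hu
  have h1 := norm_err_le (T := T) (c := c) hq0 hq1 u
  have h3 : ‖N y • co T u‖ ≤ ‖fderiv ℝ (UF T c N W) y u‖ +
      (q0 * ‖hgt T c y‖ + Module.finrank ℝ E * q1) * ‖u‖ := by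
    have e : N y • co T u = fderiv ℝ (UF T c N W) y u -
        ((fderiv ℝ N y u) • hgt T c y -
          ∑ j, (fderiv ℝ (W j) y u) • stdOrthonormalBasis ℝ E j) := by
      rw [fderiv_UF hN hW]; abel
    rw [e]
    exact (norm_sub_le _ _).trans (add_le_add le_rfl h1)
  have h2 := sq_le_two h3 (norm_nonneg _)
  rw [norm_smul, Real.norm_eq_abs, mul_pow, sq_abs] at h2
  refine h2.trans (le_of_eq ?_)
  ring

/-- Laplacian along the plane of a base function -/
lemma abs_lapS_le (hST : Module.finrank ℝ S = Module.finrank ℝ T) {g : E → ℝ}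
    (hg : ContDiff ℝ 2 g) (hgT : ∀ y, g (T.starProjection y) = g y) {l D : ℝ}
    (hl : |SL.lapT T g y| ≤ l) (hD : ‖fderiv ℝ (fderiv ℝ g) y‖ ≤ D) :
    |∑ k, fderiv ℝ (fderiv ℝ g) y (S.starProjection (stdOrthonormalBasis ℝ E k))
      (S.starProjection (stdOrthonormalBasis ℝ E k))| ≤ l + D * tilt T S.starProjection := by
  have h1 := abs_hess_base_sub_le hST hg hgT y
  rw [SL.hess_eq hg, SL.sum_proj] at h1
  have h2 := tilt_nonneg S T
  have h3 : ‖fderiv ℝ (fderiv ℝ g) y‖ * tilt T S.starProjection ≤ D * tilt T S.starProjection := by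
    gcongr
  have h4 := abs_sub_abs_le_abs_sub (∑ k, fderiv ℝ (fderiv ℝ g) y
      (S.starProjection (stdOrthonormalBasis ℝ E k))
      (S.starProjection (stdOrthonormalBasis ℝ E k))) (SL.lapT T g y)
  linarith

lemma norm_lap_UF_le (hST : Module.finrank ℝ S = Module.finrank ℝ T)
    (hN : ContDiff ℝ 2 N) (hW : ∀ j, ContDiff ℝ 2 (W j))
    (hNT : ∀ y, N (T.starProjection y) = N y) (hWT : ∀ j y, W j (T.starProjection y) = W j y)
    (hq0 : ‖fderiv ℝ N y‖ ≤ q0)
    (hl0 : |SL.lapT T N y| ≤ l0) (hD0 : ‖fderiv ℝ (fderiv ℝ N) y‖ ≤ D0)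
    (hl1 : ∀ j, |SL.lapT T (W j) y| ≤ l1) (hD1 : ∀ j, ‖fderiv ℝ (fderiv ℝ (W j)) y‖ ≤ D1) :
    ‖lap (UF T c N W) S.starProjection y‖ ≤
      (l0 + D0 * tilt T S.starProjection) * ‖hgt T c y‖ +
      2 * q0 * (√(Module.finrank ℝ S) * √(tilt T S.starProjection)) +
      Module.finrank ℝ E * (l1 + D1 * tilt T S.starProjection) := by
  set b := stdOrthonormalBasis ℝ E with hb
  have hq00 : 0 ≤ q0 := (norm_nonneg _).trans hq0
  have e0 : lap (UF T c N W) S.starProjection y =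
      ∑ k, fderiv ℝ (fderiv ℝ (UF T c N W)) y (S.starProjection (b k))
        (S.starProjection (b k)) := by
    rw [lap]; exact SL.sum_proj _ S
  have e1 : lap (UF T c N W) S.starProjection y =
      (∑ k, (2 * fderiv ℝ N y (S.starProjection (b k))) • co T (S.starProjection (b k))) +
      (∑ k, fderiv ℝ (fderiv ℝ N) y (S.starProjection (b k)) (S.starProjection (b k))) •
        hgt T c y -
      ∑ j, (∑ k, fderiv ℝ (fderiv ℝ (W j)) y (S.starProjection (b k))
        (S.starProjection (b k))) • b j := by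
    rw [e0]
    simp only [fderiv2_UF hN hW]
    rw [Finset.sum_sub_distrib, Finset.sum_add_distrib, ← Finset.sum_smul]
    congr 1
    · congr 1
      refine Finset.sum_congr rfl fun k _ => ?_
      rw [← two_smul ℝ, smul_smul]
    · rw [Finset.sum_comm]
      refine Finset.sum_congr rfl fun j _ => ?_
      rw [Finset.sum_smul]
  have f1 : ‖∑ k, (2 * fderiv ℝ N y (S.starProjection (b k))) • co T (S.starProjection (b k))‖ ≤
      2 * q0 * (√(Module.finrank ℝ S) * √(tilt T S.starProjection)) := by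
    calc _ ≤ ∑ k, (2 * q0) * (‖S.starProjection (b k)‖ * ‖co T (S.starProjection (b k))‖) := by
          refine (norm_sum_le _ _).trans (Finset.sum_le_sum fun k _ => ?_)
          rw [norm_smul, Real.norm_eq_abs, abs_mul, abs_two]
          have h1 : |fderiv ℝ N y (S.starProjection (b k))| ≤ q0 * ‖S.starProjection (b k)‖ := by
            rw [← Real.norm_eq_abs]
            exact ((fderiv ℝ N y).le_opNorm _).trans (by gcongr)
          calc _ ≤ 2 * (q0 * ‖S.starProjection (b k)‖) * ‖co T (S.starProjection (b k))‖ := by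
                gcongr
            _ = _ := by ring
      _ = (2 * q0) * ∑ k, ‖S.starProjection (b k)‖ * ‖co T (S.starProjection (b k))‖ := by
          rw [Finset.mul_sum]
      _ ≤ (2 * q0) * (√(∑ k, ‖S.starProjection (b k)‖ ^ 2) *
          √(∑ k, ‖co T (S.starProjection (b k))‖ ^ 2)) := by
          gcongr
          exact Real.sum_mul_le_sqrt_mul_sqrt _ _ _
      _ = _ := by rw [hb, sum_norm_proj, sum_co_proj]
  have f2 := abs_lapS_le hST hN hNT hl0 hD0
  have f3 := fun j => abs_lapS_le hST (hW j) (hWT j) (hl1 j) (hD1 j)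
  rw [e1]
  refine (norm_sub_le _ _).trans ?_
  refine add_le_add ((norm_add_le _ _).trans ?_) (norm_sum_basis_le f3)
  rw [add_comm]
  refine add_le_add ?_ f1
  rw [norm_smul, Real.norm_eq_abs]
  gcongr

end

end Vale.Agent.P214.CLS
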