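import Vale.Agent.P214.CLS.Drift

/-!
# P214, block CLS: drift of kernel means of functions with vanishing Hessian; drift of the mass
-/

open Set Filter Topology MeasureTheory Metric
open scoped RealInnerProductSpace

set_option linter.all false

namespace Vale.Agent.P214.CLS

open Vale.Agent.P214.FV Vale.Agent.P214.ODE Vale.Agent.P214.QP

variable {E : Type*} [NormedAddCommGroup E] [InnerProductSpace ℝ E] [FiniteDimensional ℝ E]
variable [MeasurableSpace E] [BorelSpace E]
variable {m : ℕ} {T : Submodule ℝ E} {G : Set E} {h : ℝ} {ν : Measure E} {P : E → E →L[ℝ] E}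
  {x : E}

/-- **Drift of the kernel mean** (unnormalised kernel `cub`). -/
theorem drift_gen (hm : 1 ≤ m) (hC : CylStat m T G h ν P) {r τ : ℝ} (hr : 0 < r) (hrτ : r ≤ τ)
    (hG : ∀ z ∈ T, ‖z - T.starProjection x‖ ≤ τ → z ∈ G) {F : E → ℝ} (hFc : ContDiff ℝ 2 F)
    (hFh : ∀ (B : E →L[ℝ] E) (z : E), hess F B z = 0) {B : ℝ} (hB0 : 0 ≤ B)
    (hB : ∀ᵐ z ∂ν, ‖T.starProjection (z - x)‖ ≤ τ → |F z| ≤ B) :
    |hgtK m T x cub F ν τ - hgtK m T x cub F ν r|
      ≤ 7 / 6 * B * r ^ (-(m : ℤ)) *
        ∫ z in {z | ‖T.starProjection (z - x)‖ ≤ τ}, FV.tilt T (P z) ∂ν := by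
  haveI := hC.fin
  have hpl := CylStat.plane hC
  set A : Set E := {z | ‖T.starProjection (z - x)‖ ≤ τ} with hA
  have hAm : MeasurableSet A := measurableSet_cl T x τ
  set X := ∫ z in A, FV.tilt T (P z) ∂ν with hX
  have hτ : 0 < τ := hr.trans_le hrτ
  have hit : Integrable (ODE.tilt T P) ν := QP.integrable_tilt hC
  have hX' : X = ∫ z in A, ODE.tilt T P z ∂ν := by
    rw [hX]; exact integral_congr_ae (Eventually.of_forall fun z => (otilt_eq T P z).symm)
  have hX0 : 0 ≤ X := by
    rw [hX']
    refine integral_nonneg_of_ae (ae_restrict_of_ae ?_)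
    filter_upwards [CylStat.tilt_nonneg hC] with z hz using hz
  have hbx : ∀ z, bsq T x z = ‖T.starProjection (z - x)‖ ^ 2 := fun z => rfl
  -- far from the ball of radius `t ≤ τ` the kernels vanish
  have hfar : ∀ t, 0 < t → t ≤ τ → ∀ z, z ∉ A → 1 ≤ bsq T x z / t ^ 2 := by
    intro t ht htτ z hz
    have h1 : τ < ‖T.starProjection (z - x)‖ := not_le.1 hz
    rw [one_le_div (by positivity), hbx]
    have : t ≤ ‖T.starProjection (z - x)‖ := htτ.trans h1.le
    gcongr
  -- continuity
  have hcont : ContinuousOn (hgtK m T x cub F ν) (Icc r τ) := by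
    have hw : AEStronglyMeasurable (A.indicator F) ν :=
      (hFc.continuous.aestronglyMeasurable).indicator hAm
    have hwb : ∀ᵐ z ∂ν, |A.indicator F z| ≤ B := by
      filter_upwards [hB] with z hz
      by_cases hzA : z ∈ A
      · rw [indicator_of_mem hzA]; exact hz hzA
      · rw [indicator_of_notMem hzA, abs_zero]; exact hB0
    have heq : ∀ t ∈ Icc r τ, hgtK m T x cub F ν t
        = t ^ (-(m : ℤ)) * ∫ y, cub (bsq T x y / t ^ 2) * A.indicator F y ∂ν := by
      intro t ht
      unfold hgtK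
      congr 1
      refine integral_congr_ae (Eventually.of_forall fun z => ?_)
      simp only
      by_cases hzA : z ∈ A
      · rw [indicator_of_mem hzA]
      · rw [cub_of_one_le (hfar t (hr.trans_le ht.1) ht.2 z hzA), zero_mul, zero_mul]
    refine ContinuousOn.congr ?_ heq
    intro t ht
    have ht0 : 0 < t := hr.trans_le ht.1
    have := hasDerivAt_scaled (ν := ν) kern4.pk (continuous_bsq T x).aestronglyMeasurable
      (bsq_nonneg T x) hw (R := t + 1) (C := B)
      (by filter_upwards [hwb] with z hz _ using hz) ht0 (by linarith) (-(m : ℤ))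
    exact this.continuousAt.continuousWithinAt
  -- derivative
  have hder : ∀ t ∈ Ico r τ, ∃ D, HasDerivAt (hgtK m T x cub F ν) D t ∧
      |D| ≤ 7 / 6 * B * X * t ^ (-(m : ℤ) - 1) := by
    intro t ht
    have ht0 : 0 < t := hr.trans_le ht.1
    have hBall : BallIn T G x τ := fun z hz hz2 => hG z hz hz2
    have h1 := CylStat.height_ode hC kern4 hFc ht0 ht.2 hBall
    refine ⟨_, h1, ?_⟩
    have h2 : hessK m T x quar F P ν t = 0 := by
      unfold hessK
      have : (fun y => quar (bsq T x y / t ^ 2) * hess F (P y) y) = fun _ => 0 := by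
        funext y; rw [hFh, mul_zero]
      rw [this]; simp
    rw [h2, zero_sub, abs_mul, abs_neg, abs_of_pos (inv_pos.2 ht0)]
    have h3 : |errK m T x cub (fun s => -(prof s) / 2) F P ν t|
        ≤ t ^ (-(m : ℤ)) * (7 / 6 * B * X) := by
      unfold errK
      rw [abs_mul, abs_of_nonneg (zpow_nonneg ht0.le _)]
      refine mul_le_mul_of_nonneg_left ?_ (zpow_nonneg ht0.le _)
      refine (abs_integral_le_integral_abs).trans ?_
      have hle : ∫ y, |F y * (cub (bsq T x y / t ^ 2) * ODE.tilt T P y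
          + 2 * (-(prof (bsq T x y / t ^ 2)) / 2) / t ^ 2 * ODE.rad T P x y)| ∂ν
          ≤ ∫ y, A.indicator (fun y => 7 / 6 * B * ODE.tilt T P y) y ∂ν := by
        refine integral_mono_of_nonneg (Eventually.of_forall fun y => abs_nonneg _)
          ((hit.const_mul _).indicator hAm) ?_
        filter_upwards [hB, CylStat.tilt_nonneg hC, CylStat.rad_le_tilt hC x] with z hz ht1 hr1
        by_cases hzA : z ∈ A
        · rw [indicator_of_mem hzA]
          have hFz : |F z| ≤ B := hz hzA
          by_cases hu : 1 ≤ bsq T x z / t ^ 2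
          · rw [cub_of_one_le hu, prof_of_one_le hu]
            simp only [zero_mul, neg_zero, zero_div, mul_zero, add_zero, abs_zero]
            positivity
          · rw [not_le] at hu
            have hu0 : 0 ≤ bsq T x z / t ^ 2 := div_nonneg (bsq_nonneg _ _ _) (by positivity)
            have h4 := cub_le hu0
            have h5 := cub_nonneg (bsq T x z / t ^ 2)
            have h6 : prof (bsq T x z / t ^ 2) ≤ 1 := prof_le_one hu0
            have h7 := prof_nonneg (bsq T x z / t ^ 2)
            have h8 : ODE.rad T P x z ≤ t ^ 2 * ODE.tilt T P z := by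
              refine hr1.trans (mul_le_mul_of_nonneg_right ?_ ht1)
              rw [div_lt_one (by positivity)] at hu
              exact hu.le
            have h9 : 0 ≤ ODE.rad T P x z := rad_nonneg z
            rw [abs_mul]
            have h10 : |cub (bsq T x z / t ^ 2) * ODE.tilt T P z
                + 2 * (-(prof (bsq T x z / t ^ 2)) / 2) / t ^ 2 * ODE.rad T P x z|
                ≤ 7 / 6 * ODE.tilt T P z := by
              have e1 : 2 * (-(prof (bsq T x z / t ^ 2)) / 2) / t ^ 2 * ODE.rad T P x z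
                  = -(prof (bsq T x z / t ^ 2) * (ODE.rad T P x z / t ^ 2)) := by
                ring
              rw [e1]
              have h11 : ODE.rad T P x z / t ^ 2 ≤ ODE.tilt T P z := by
                rw [div_le_iff₀ (by positivity)]; linarith
              have h12 : 0 ≤ ODE.rad T P x z / t ^ 2 := by positivity
              have h13 : prof (bsq T x z / t ^ 2) * (ODE.rad T P x z / t ^ 2)
                  ≤ 1 * ODE.tilt T P z := mul_le_mul h6 h11 h12 (by norm_num)
              have h14 : 0 ≤ prof (bsq T x z / t ^ 2) * (ODE.rad T P x z / t ^ 2) := by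
                positivity
              have h15 : cub (bsq T x z / t ^ 2) * ODE.tilt T P z ≤ 1 / 6 * ODE.tilt T P z :=
                mul_le_mul_of_nonneg_right h4 ht1
              have h16 : 0 ≤ cub (bsq T x z / t ^ 2) * ODE.tilt T P z := by positivity
              rw [abs_le]; constructor <;> linarith
            calc |F z| * |cub (bsq T x z / t ^ 2) * ODE.tilt T P z
                + 2 * (-(prof (bsq T x z / t ^ 2)) / 2) / t ^ 2 * ODE.rad T P x z|
                ≤ B * (7 / 6 * ODE.tilt T P z) := mul_le_mul hFz h10 (abs_nonneg _) hB0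
              _ = _ := by ring
        · rw [indicator_of_notMem hzA]
          have hu := hfar t ht0 ht.2.le z hzA
          rw [cub_of_one_le hu, prof_of_one_le hu]
          simp
      refine hle.trans (le_of_eq ?_)
      rw [integral_indicator hAm, integral_const_mul, ← hX']
    calc t⁻¹ * |errK m T x cub (fun s => -(prof s) / 2) F P ν t|
        ≤ t⁻¹ * (t ^ (-(m : ℤ)) * (7 / 6 * B * X)) :=
          mul_le_mul_of_nonneg_left h3 (inv_pos.2 ht0).le
      _ = 7 / 6 * B * X * t ^ (-(m : ℤ) - 1) := by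
          rw [zpow_sub_one₀ ht0.ne']; ring
  choose! D hD hD2 using hder
  set c := 7 / 6 * B * X with hc
  have hc0 : 0 ≤ c := by positivity
  have key := image_norm_le_of_norm_deriv_right_le_deriv_boundary' (a := r) (b := τ)
    (f := fun t => hgtK m T x cub F ν t - hgtK m T x cub F ν r) (f' := D)
    (hcont.sub continuousOn_const)
    (fun t ht => ((hD t ht).sub_const _).hasDerivWithinAt)
    (B := fun t => c * (r ^ (-(m : ℤ)) - t ^ (-(m : ℤ))))
    (B' := fun t => c * (m * t ^ (-(m : ℤ) - 1)))
    (by simp)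
    (continuousOn_const.mul (continuousOn_const.sub
      (fun t ht => (continuousAt_zpow₀ t _ (Or.inl (hr.trans_le ht.1).ne')).continuousWithinAt)))
    (fun t ht => by
      have ht0 : 0 < t := hr.trans_le ht.1
      have h1 := (hasDerivAt_zpow (-(m : ℤ)) t (Or.inl ht0.ne')).const_sub (r ^ (-(m : ℤ)))
      have h2 := h1.const_mul c
      refine (h2.congr_deriv ?_).hasDerivWithinAt
      push_cast; ring)
    (fun t ht => by
      have ht0 : 0 < t := hr.trans_le ht.1
      rw [Real.norm_eq_abs]
      refine (hD2 t ht).trans ?_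
      refine mul_le_mul_of_nonneg_left ?_ hc0
      have h1 : 0 ≤ t ^ (-(m : ℤ) - 1) := zpow_nonneg ht0.le _
      have h2 : (1:ℝ) ≤ m := by exact_mod_cast hm
      nlinarith)
    (right_mem_Icc.2 hrτ)
  rw [Real.norm_eq_abs] at key
  refine key.trans ?_
  have h1 : 0 ≤ τ ^ (-(m : ℤ)) := zpow_nonneg hτ.le _
  have h2 : c * (r ^ (-(m : ℤ)) - τ ^ (-(m : ℤ))) ≤ c * r ^ (-(m : ℤ)) :=
    mul_le_mul_of_nonneg_left (by linarith) hc0
  refine h2.trans (le_of_eq ?_)
  rw [hc]; ring

lemma hess_const (c : ℝ) (B : E →L[ℝ] E) (z : E) : hess (fun _ : E => c) B z = 0 := by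
  have h := hess_of_grad (F := fun _ : E => c) (X := fun _ => (0 : E)) (A := 0) (y := z)
    (fun y v => by simp) (hasFDerivAt_const _ _) B
  rw [h]
  have : (0 : E →L[ℝ] E).comp B = 0 := by ext v; simp
  rw [this]
  unfold tr
  simp

lemma hgtK_one_eq {t : ℝ} (ht : 0 < t) :
    6 * hgtK m T x cub (fun _ => 1) ν t
      = t ^ (-(m : ℤ)) * ∫ z, 6 * cub (‖T.starProjection (t⁻¹ • (z - x))‖ ^ 2) ∂ν := by
  unfold hgtK
  rw [mul_left_comm, ← integral_const_mul]
  congr 1
  refine integral_congr_ae (Eventually.of_forall fun z => ?_)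
  simp only
  have h1 : ‖T.starProjection (t⁻¹ • (z - x))‖ ^ 2 = bsq T x z / t ^ 2 := by
    rw [map_smul, norm_smul, norm_inv, Real.norm_of_nonneg ht.le, mul_pow, inv_pow,
      inv_mul_eq_div]
    rfl
  rw [h1]
  ring

/-- **Drift of the mass** with the kernel `6 cub (|p u|²)`. -/
theorem drift_mass (hm : 1 ≤ m) (hC : CylStat m T G h ν P) {r τ : ℝ} (hr : 0 < r) (hrτ : r ≤ τ)
    (hG : ∀ z ∈ T, ‖z - T.starProjection x‖ ≤ τ → z ∈ G) :
    |τ ^ (-(m : ℤ)) * (∫ z, 6 * cub (‖T.starProjection (τ⁻¹ • (z - x))‖ ^ 2) ∂ν)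
      - r ^ (-(m : ℤ)) * ∫ z, 6 * cub (‖T.starProjection (r⁻¹ • (z - x))‖ ^ 2) ∂ν|
      ≤ 7 * r ^ (-(m : ℤ)) *
        ∫ z in {z | ‖T.starProjection (z - x)‖ ≤ τ}, FV.tilt T (P z) ∂ν := by
  have h1 := drift_gen hm hC hr hrτ hG (F := fun _ => (1 : ℝ)) contDiff_const
    (fun B z => hess_const 1 B z) zero_le_one
    (Eventually.of_forall fun z _ => by rw [abs_one])
  rw [← hgtK_one_eq (hr.trans_le hrτ), ← hgtK_one_eq hr, ← mul_sub, abs_mul,
    abs_of_pos (by norm_num : (0:ℝ) < 6)]
  linarith

end Vale.Agent.P214.CLS
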