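import Vale.Agent.P214.CLS.Slab
import Vale.Agent.P214.CLS.DriftMass

/-!
# P214, block CLS, part 9: plateau bounds and the field at collapsed points (for R2-C)
-/

open Set Filter Topology MeasureTheory Metric
open scoped RealInnerProductSpace ENNReal

set_option linter.all false

namespace Vale.Agent.P214.CLS

open Vale.Agent.P214.FV

/-- the kernel `6 cub (|p u|²) = (1 - |p u|²)_+³` -/
noncomputable def K0 {E : Type*} [NormedAddCommGroup E] [InnerProductSpace ℝ E]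
    [FiniteDimensional ℝ E] (T : Submodule ℝ E) (u : E) : ℝ :=
  6 * QP.cub (‖T.starProjection u‖ ^ 2)

variable {E : Type*} [NormedAddCommGroup E] [InnerProductSpace ℝ E] [FiniteDimensional ℝ E]

lemma BK.mono {T : Submodule ℝ E} {A A' : ℝ} {K : E → ℝ} (h : BK T A K) (hA : A ≤ A') :
    BK T A' K :=
  ⟨h.smooth, h.base, h.nonneg, h.le_one, fun y => (h.n1 y).trans hA, fun y => (h.n2 y).trans hA,
    h.supp, h.low⟩

lemma VW.mono {T : Submodule ℝ E} {c : E} {R A A' : ℝ} {η : E → ℝ} (h : VW T c R A η)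
    (hR : 0 < R) (hA : A ≤ A') : VW T c R A' η :=
  ⟨h.smooth, h.vert, h.nonneg, h.le_one, fun y => (h.n1 y).trans (by gcongr),
    fun y => (h.n2 y).trans (by gcongr), h.supp, h.one⟩

lemma exists_BK0 (E : Type*) [NormedAddCommGroup E] [InnerProductSpace ℝ E]
    [FiniteDimensional ℝ E] : ∃ A : ℝ, 1 ≤ A ∧ ∀ T : Submodule ℝ E, BK T A (K0 T) := by
  set f : E → ℝ := fun u => 6 * QP.cub (‖u‖ ^ 2) with hf
  have hf2 : ContDiff ℝ 2 f := contDiff_const.mul (QP.contDiff_cub.comp (contDiff_norm_sq ℝ))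
  have hz : ∀ u, 1 ≤ ‖u‖ → f u = 0 := by
    intro u hu
    simp only [hf]
    rw [QP.cub_of_one_le (one_le_pow₀ hu), mul_zero]
  have hc : HasCompactSupport f := by
    refine HasCompactSupport.of_support_subset_isCompact (isCompact_closedBall (0 : E) 1) ?_
    intro u hu
    rw [mem_closedBall_zero_iff]
    by_contra h
    exact hu (hz u (le_of_lt (not_le.1 h)))
  obtain ⟨C1, hC1⟩ := (hf2.continuous_fderiv (by norm_num)).bounded_above_of_compact_support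
    (hc.fderiv (𝕜 := ℝ))
  obtain ⟨C2, hC2⟩ := ((hf2.fderiv_right (m := 1) (by norm_num)).continuous_fderiv
    (by norm_num)).bounded_above_of_compact_support ((hc.fderiv (𝕜 := ℝ)).fderiv (𝕜 := ℝ))
  set A := max 1 (max C1 C2) with hA
  have hA1 : ∀ u, ‖fderiv ℝ f u‖ ≤ A := fun u =>
    (hC1 u).trans ((le_max_left _ _).trans (le_max_right _ _))
  have hA2 : ∀ u, ‖fderiv ℝ (fderiv ℝ f) u‖ ≤ A := fun u =>
    (hC2 u).trans ((le_max_right _ _).trans (le_max_right _ _))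
  refine ⟨A, le_max_left _ _, fun T => ?_⟩
  obtain ⟨g1, g2, g3⟩ := affine_bounds hf2 hA1 hA2 (T.starProjection_norm_le) 1 0
  have he : (fun y => f ((1 : ℝ) • (T.starProjection y - 0))) = K0 T := by
    funext y
    simp [hf, K0]
  rw [he] at g1 g2 g3
  refine ⟨g1, fun y => ?_, fun y => ?_, fun y => ?_, fun y => ?_, fun y => ?_, fun y hy => ?_,
    fun y hy => ?_⟩
  · unfold K0
    rw [star_self]
  · unfold K0
    have := QP.cub_nonneg (‖T.starProjection y‖ ^ 2)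
    linarith
  · unfold K0
    have := QP.cub_le (s := ‖T.starProjection y‖ ^ 2) (by positivity)
    linarith
  · simpa using g2 y
  · simpa using g3 y
  · unfold K0
    rw [QP.cub_of_one_le (one_le_pow₀ hy), mul_zero]
  · unfold K0
    have h1 : ‖T.starProjection y‖ ^ 2 ≤ 1 / 4 := by
      calc _ ≤ (1 / 2 : ℝ) ^ 2 := by gcongr
        _ = 1 / 4 := by norm_num
    have h2 := QP.le_cub h1 (by norm_num)
    norm_num at h2
    linarith

/-! ### plateau bounds -/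

section
variable {T : Submodule ℝ E} {c : E} {R A : ℝ} {η : E → ℝ}

lemma isOpen_near (T : Submodule ℝ E) (c : E) (R : ℝ) : IsOpen {y | ‖hgt T c y‖ < R} :=
  isOpen_lt (contDiff_hgt (n := 0) T c).continuous.norm continuous_const

lemma VW.fderiv_plateau (hη : VW T c R A η) {y : E} (hy : ‖hgt T c y‖ < R) :
    fderiv ℝ η y = 0 ∧ fderiv ℝ (fderiv ℝ η) y = 0 := by
  have h1 : ∀ y ∈ {y | ‖hgt T c y‖ < R}, fderiv ℝ η y = 0 := by
    intro y hy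
    have : η =ᶠ[𝓝 y] fun _ => (1 : ℝ) := by
      filter_upwards [(isOpen_near T c R).mem_nhds hy] with z hz
      exact hη.one z (le_of_lt hz)
    rw [this.fderiv_eq]
    simp
  refine ⟨h1 y hy, ?_⟩
  have : fderiv ℝ η =ᶠ[𝓝 y] fun _ => (0 : E →L[ℝ] ℝ) := by
    filter_upwards [(isOpen_near T c R).mem_nhds hy] with z hz using h1 z hz
  rw [this.fderiv_eq]
  simp

lemma VW.wh_plateau (hη : VW T c R A η) (e : E) {y : E} (hy : ‖hgt T c y‖ < R) :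
    wh T c η e y = ⟪e, hgt T c y⟫ ∧ ‖fderiv ℝ (wh T c η e) y‖ ≤ ‖e‖ ∧
      fderiv ℝ (fderiv ℝ (wh T c η e)) y = 0 := by
  have h1 : ∀ y ∈ {y | ‖hgt T c y‖ < R}, fderiv ℝ (wh T c η e) y = (innerSL ℝ e).comp (co T) := by
    intro y hy
    have : wh T c η e =ᶠ[𝓝 y] fun y => ⟪e, hgt T c y⟫ := by
      filter_upwards [(isOpen_near T c R).mem_nhds hy] with z hz
      rw [wh, hη.one z (le_of_lt hz), one_mul]
    rw [this.fderiv_eq]
    have h2 : HasFDerivAt (fun y => ⟪e, hgt T c y⟫) ((innerSL ℝ e).comp (co T)) y :=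
      (innerSL ℝ e).hasFDerivAt.comp y (hasFDerivAt_hgt T c y)
    exact h2.fderiv
  refine ⟨by rw [wh, hη.one y hy.le, one_mul], ?_, ?_⟩
  · rw [h1 y hy]
    exact norm_inner_co_le T e
  · have : fderiv ℝ (wh T c η e) =ᶠ[𝓝 y] fun _ => (innerSL ℝ e).comp (co T) := by
      filter_upwards [(isOpen_near T c R).mem_nhds hy] with z hz using h1 z hz
    rw [this.fderiv_eq]
    simp

end

variable [MeasurableSpace E] [BorelSpace E]
variable {m : ℕ} {T : Submodule ℝ E} {G : Set E} {h : ℝ} {ν : Measure E} {P : E → E →L[ℝ] E}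

/-- the plateau bounds: everything is over the plateau of the window -/
lemma LB_plateau {c : E} {R A : ℝ} {η : E → ℝ} (hη : VW T c R A η) (hR : 1 < R) {z : E} {s : ℝ}
    (hH : ∀ᵐ y ∂ν, y ∈ ccyl T z s → ‖hgt T c y‖ ≤ 1) : LB T c η ν z s 0 0 1 1 0 1 := by
  refine ⟨le_rfl, le_rfl, zero_le_one, zero_le_one, le_rfl, zero_le_one, ?_, ?_, fun j => ?_,
    fun j => ?_, fun j => ?_, ?_⟩
  · filter_upwards [hH] with y hy h1
    rw [(hη.fderiv_plateau ((hy h1).trans_lt hR)).1, norm_zero]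
  · filter_upwards [hH] with y hy h1
    rw [(hη.fderiv_plateau ((hy h1).trans_lt hR)).2]
    exact (norm_zero (E := E →L[ℝ] E →L[ℝ] ℝ)).le
  · filter_upwards [hH] with y hy h1
    rw [(hη.wh_plateau _ ((hy h1).trans_lt hR)).1]
    refine (abs_real_inner_le_norm _ _).trans ?_
    rw [(stdOrthonormalBasis ℝ E).norm_eq_one, one_mul]
    exact hy h1
  · filter_upwards [hH] with y hy h1
    refine (hη.wh_plateau _ ((hy h1).trans_lt hR)).2.1.trans ?_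
    rw [(stdOrthonormalBasis ℝ E).norm_eq_one]
  · filter_upwards [hH] with y hy h1
    rw [(hη.wh_plateau _ ((hy h1).trans_lt hR)).2.2]
    exact (norm_zero (E := E →L[ℝ] E →L[ℝ] ℝ)).le
  · filter_upwards [hH] with y hy h1 _
    exact hy h1

lemma sub_cyl {z y : E} {ℓ s : ℝ} (hy : y ∈ ccyl T z ℓ) (hs : s ≤ 2 * ℓ) :
    ccyl T y s ⊆ ccyl T z (3 * ℓ) := by
  intro y' hy'
  have := ccyl_subset (r := s) hy hy'
  exact (show ‖T.starProjection (y' - z)‖ ≤ ℓ + s from this).trans (by linarith)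

lemma integrable_ker_mul [IsFiniteMeasure ν] {A b : ℝ} {K Φ : E → ℝ} (hA : 1 ≤ A)
    (hK : BK T A K) (hΦ : ContDiff ℝ 2 Φ) (hb : ∀ z, |Φ z| ≤ b) (s : ℝ) (y : E) :
    Integrable (fun z => Φ z • K (s • (z - y))) ν :=
  integrable_kint (k := K) (A := A) (b := b) (Φ := Φ) hK.smooth.continuous
    hΦ.continuous.aestronglyMeasurable (fun u => by
      rw [Real.norm_eq_abs, abs_of_nonneg (hK.nonneg u)]; exact (hK.le_one u).trans hA)
    (Eventually.of_forall fun z => hb z) s y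

/-- the kernel mass at a small scale through the drift of the mass -/
lemma mass_le (hm : 1 ≤ m) (hC : CylStat m T G h ν P) {A : ℝ} (hA : 1 ≤ A) (hK : BK T A (K0 T))
    {z y : E} {ℓ r M : ℝ} (hℓ : 0 < ℓ) (hr : 0 < r) (hrℓ : r ≤ ℓ)
    (hG : InG T G z (3 * ℓ)) (hy : y ∈ ccyl T z ℓ) (hM : ν.real (ccyl T z (3 * ℓ)) ≤ M) :
    r ^ (-(m : ℤ)) * ∫ z', K0 T (r⁻¹ • (z' - y)) ∂ν ≤
      ℓ ^ (-(m : ℤ)) * M + 7 * r ^ (-(m : ℤ)) * eC T ν P z (3 * ℓ) := by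
  have hfin := hC.fin
  have hy' : ‖T.starProjection (y - z)‖ ≤ ℓ := hy
  have hGy : ∀ x ∈ T, ‖x - T.starProjection y‖ ≤ ℓ → x ∈ G :=
    (hG.move (y := y) (r' := ℓ) (by linarith))
  have hdr := drift_mass hm hC hr hrℓ hGy
  have hlm : 0 < ℓ ^ (-(m : ℤ)) := by positivity
  have hrm : 0 < r ^ (-(m : ℤ)) := by positivity
  have heC : ∫ z in {z | ‖T.starProjection (z - y)‖ ≤ ℓ}, tilt T (P z) ∂ν ≤
      eC T ν P z (3 * ℓ) := by
    unfold eC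
    refine setIntegral_mono_set (integrable_tilt hC).integrableOn
      (ae_restrict_of_ae ?_) (HasSubset.Subset.eventuallyLE
        (sub_cyl (s := ℓ) hy (by linarith)))
    filter_upwards [ae_tilt hC] with y hy using hy.1
  have h1 : ∫ z', K0 T (ℓ⁻¹ • (z' - y)) ∂ν ≤ M := by
    have hint := integrable_ker_mul (ν := ν) (Φ := fun _ => (1 : ℝ)) (b := 1) hA hK contDiff_const
      (fun z => by simp) ℓ⁻¹ y
    simp only [one_smul] at hint
    have h2 : ∫ z', K0 T (ℓ⁻¹ • (z' - y)) ∂ν ≤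
        ∫ z', (ccyl T z (3 * ℓ)).indicator (fun _ => (1 : ℝ)) z' ∂ν := by
      refine integral_mono hint ((integrable_const _).indicator (measurableSet_ccyl T z _)) ?_
      intro z'
      show K0 T (ℓ⁻¹ • (z' - y)) ≤ (ccyl T z (3 * ℓ)).indicator (fun _ => (1 : ℝ)) z'
      by_cases h3 : z' ∈ ccyl T y ℓ
      · rw [indicator_of_mem (sub_cyl hy (by linarith) h3)]
        exact hK.le_one _
      · have := hK.ker_off hℓ h3
        unfold ker at this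
        rw [this]
        exact indicator_nonneg (fun _ _ => zero_le_one) _
    rw [integral_indicator (measurableSet_ccyl T z _), setIntegral_const, smul_eq_mul,
      mul_one] at h2
    exact h2.trans hM
  have h3 := (abs_le.1 hdr).1
  have h4 : ℓ ^ (-(m : ℤ)) * (∫ z', K0 T (ℓ⁻¹ • (z' - y)) ∂ν) ≤ ℓ ^ (-(m : ℤ)) * M := by gcongr
  have h5 : 7 * r ^ (-(m : ℤ)) * ∫ z in {z | ‖T.starProjection (z - y)‖ ≤ ℓ}, tilt T (P z) ∂ν ≤
      7 * r ^ (-(m : ℤ)) * eC T ν P z (3 * ℓ) := by gcongr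
  have h6 : ℓ ^ (-(m : ℤ)) * (∫ z', 6 * QP.cub (‖T.starProjection (ℓ⁻¹ • (z' - y))‖ ^ 2) ∂ν) =
    ℓ ^ (-(m : ℤ)) * (∫ z', K0 T (ℓ⁻¹ • (z' - y)) ∂ν) := rfl
  have h7 : r ^ (-(m : ℤ)) * (∫ z', 6 * QP.cub (‖T.starProjection (r⁻¹ • (z' - y))‖ ^ 2) ∂ν) =
    r ^ (-(m : ℤ)) * (∫ z', K0 T (r⁻¹ • (z' - y)) ∂ν) := rfl
  rw [h6, h7] at h3
  linarith

/-- the bottom term -/
lemma bottom_le (hm : 1 ≤ m) (hC : CylStat m T G h ν P) {A : ℝ}
    (hA : 1 ≤ A) (hK : BK T A (K0 T)) {c : E} {z y : E}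
    {ℓ r σ H0 M : ℝ} (hℓ : 0 < ℓ) (hr : 0 < r) (hrℓ : r ≤ ℓ) (hσ : 0 ≤ σ) (hM0 : 0 ≤ M)
    (hG : InG T G z (3 * ℓ)) (hy : y ∈ ccyl T z ℓ) (hM : ν.real (ccyl T z (3 * ℓ)) ≤ M)
    (hH : ∀ᵐ y ∂ν, y ∈ ccyl T z (3 * ℓ) → ‖hgt T c y‖ ≤ H0) (hyH : ‖hgt T c y‖ ≤ H0)
    (hyr : ∀ᵐ y' ∂ν, y' ∈ ccyl T y r → ‖co T (y' - y)‖ ≤ σ) {e : E} (hen : ‖e‖ = 1) :
    r ^ (-(m : ℤ)) * |∫ z', K0 T (r⁻¹ • (z' - y)) * ⟪e, co T z' - co T y⟫ ∂ν| ≤
      σ * (ℓ ^ (-(m : ℤ)) * M) + 2 * H0 * (7 * r ^ (-(m : ℤ)) * eC T ν P z (3 * ℓ)) := by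
  have hfin := hC.fin
  have hHp : 0 ≤ H0 := (norm_nonneg _).trans hyH
  have hrm : 0 < r ^ (-(m : ℤ)) := by positivity
  have hlm : 0 < ℓ ^ (-(m : ℤ)) := by positivity
  have hE00 : 0 ≤ eC T ν P z (3 * ℓ) := eC_nonneg hC z _
  set s := min σ (2 * H0) with hs
  have hs0 : 0 ≤ s := le_min hσ (by linarith)
  have hint := integrable_ker_mul (ν := ν) (Φ := fun _ => (1 : ℝ)) (b := 1) hA hK contDiff_const
      (fun z => by simp) r⁻¹ y
  simp only [one_smul] at hint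
  have h1 : |∫ z', K0 T (r⁻¹ • (z' - y)) * ⟪e, co T z' - co T y⟫ ∂ν| ≤
      s * ∫ z', K0 T (r⁻¹ • (z' - y)) ∂ν := by
    rw [← integral_const_mul]
    refine abs_integral_le_integral_abs.trans (integral_mono_of_nonneg
      (Eventually.of_forall fun _ => abs_nonneg _) (hint.const_mul s) ?_)
    filter_upwards [hyr, hH] with z' hz' hHz'
    by_cases h7 : z' ∈ ccyl T y r
    · have h8 := hK.nonneg (r⁻¹ • (z' - y))
      rw [abs_mul, abs_of_nonneg h8, mul_comm s]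
      refine mul_le_mul_of_nonneg_left ?_ h8
      refine (abs_real_inner_le_norm _ _).trans ?_
      rw [hen, one_mul]
      refine le_min ?_ ?_
      · rw [← map_sub]
        exact hz' h7
      · have : co T z' - co T y = hgt T c z' - hgt T c y := by unfold hgt; abel
        rw [this]
        refine (norm_sub_le _ _).trans ?_
        have := hHz' (sub_cyl hy (by linarith) h7)
        linarith
    · have := hK.ker_off hr h7
      unfold ker at this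
      rw [this]
      simp
  have h2 := mass_le hm hC hA hK hℓ hr hrℓ hG hy hM
  calc r ^ (-(m : ℤ)) * |∫ z', K0 T (r⁻¹ • (z' - y)) * ⟪e, co T z' - co T y⟫ ∂ν|
      ≤ r ^ (-(m : ℤ)) * (s * ∫ z', K0 T (r⁻¹ • (z' - y)) ∂ν) := by gcongr
    _ = s * (r ^ (-(m : ℤ)) * ∫ z', K0 T (r⁻¹ • (z' - y)) ∂ν) := by ring
    _ ≤ s * (ℓ ^ (-(m : ℤ)) * M + 7 * r ^ (-(m : ℤ)) * eC T ν P z (3 * ℓ)) := by gcongr
    _ = s * (ℓ ^ (-(m : ℤ)) * M) + s * (7 * r ^ (-(m : ℤ)) * eC T ν P z (3 * ℓ)) := by ring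
    _ ≤ _ := by
        gcongr
        · exact min_le_left _ _
        · exact min_le_right _ _

/-- one component of the field through the drift -/
lemma comp_le (hm : 1 ≤ m) (hC : CylStat m T G h ν P) {A : ℝ}
    (hA : 1 ≤ A) (hK : BK T A (K0 T)) {c : E} {η : E → ℝ} (hη : VW T c 2 A η) {z y : E}
    {ℓ r σ H0 M : ℝ} (hM0 : 0 ≤ M) (hℓ : 0 < ℓ) (hr : 0 < r) (hrℓ : r ≤ ℓ) (hσ : 0 ≤ σ)
    (hG : InG T G z (3 * ℓ)) (hy : y ∈ ccyl T z ℓ)
    (hH : ∀ᵐ y ∂ν, y ∈ ccyl T z (3 * ℓ) → ‖hgt T c y‖ ≤ H0) (hH1 : H0 ≤ 1)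
    (hyH : ‖hgt T c y‖ ≤ H0)
    (hyr : ∀ᵐ y' ∂ν, y' ∈ ccyl T y r → ‖co T (y' - y)‖ ≤ σ)
    (hM : ν.real (ccyl T z (3 * ℓ)) ≤ M) (j : Fin (Module.finrank ℝ E)) :
    |NF ν (K0 T) η ℓ y * ⟪stdOrthonormalBasis ℝ E j, hgt T c y⟫ -
        WF T c ν (K0 T) η ℓ j y| ≤
      σ * M + 28 * ℓ ^ m * (H0 * eC T ν P z (3 * ℓ) * r ^ (-(m : ℤ))) := by
  have hfin := hC.fin
  set e := stdOrthonormalBasis ℝ E j with he
  have hen : ‖e‖ = 1 := (stdOrthonormalBasis ℝ E).norm_eq_one j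
  set E0 := eC T ν P z (3 * ℓ) with hE0
  have hE00 : 0 ≤ E0 := eC_nonneg hC z _
  have hHp : 0 ≤ H0 := (norm_nonneg _).trans hyH
  have hy' : ‖T.starProjection (y - z)‖ ≤ ℓ := hy
  have hrm : 0 < r ^ (-(m : ℤ)) := by positivity
  have hlm : 0 < ℓ ^ (-(m : ℤ)) := by positivity
  have hint0 := integrable_ker_mul (ν := ν) hA hK hη.smooth (fun z => hη.abs_le z) ℓ⁻¹ y
  have hint1 := integrable_ker_mul (ν := ν) hA hK (hη.contDiff_wh e)
    (fun z => hη.abs_wh_le two_pos e z) ℓ⁻¹ y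
  have e1 : NF ν (K0 T) η ℓ y * ⟪e, hgt T c y⟫ - WF T c ν (K0 T) η ℓ j y =
      -∫ z', K0 T (ℓ⁻¹ • (z' - y)) * ⟪e, co T z' - co T y⟫ ∂ν := by
    have e2 : NF ν (K0 T) η ℓ y * ⟪e, hgt T c y⟫ - WF T c ν (K0 T) η ℓ j y =
        ∫ z', (⟪e, hgt T c y⟫ * (η z' • K0 T (ℓ⁻¹ • (z' - y))) -
          wh T c η e z' • K0 T (ℓ⁻¹ • (z' - y))) ∂ν := by
      rw [integral_sub (hint0.const_mul _) hint1, integral_const_mul, mul_comm]
      rfl
    rw [e2, ← integral_neg]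
    refine integral_congr_ae ?_
    filter_upwards [hH] with z' hz'
    by_cases hz'y : z' ∈ ccyl T y ℓ
    · have h4 : ‖hgt T c z'‖ ≤ 1 := (hz' (sub_cyl hy (by linarith) hz'y)).trans hH1
      rw [wh, hη.one z' (h4.trans (by norm_num))]
      have h5 : ⟪e, co T z' - co T y⟫ = ⟪e, hgt T c z'⟫ - ⟪e, hgt T c y⟫ := by
        rw [← inner_sub_right]; congr 1; unfold hgt; abel
      rw [h5]
      simp only [smul_eq_mul, one_mul]
      ring
    · have := hK.ker_off hℓ hz'y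
      unfold ker at this
      rw [this]
      simp
  rw [e1, abs_neg]
  have hGy : ∀ x ∈ T, ‖x - T.starProjection y‖ ≤ ℓ → x ∈ G :=
    (hG.move (y := y) (r' := ℓ) (by linarith))
  have hB : ∀ᵐ z' ∂ν, ‖T.starProjection (z' - y)‖ ≤ ℓ → |⟪e, co T z' - co T y⟫| ≤ 2 * H0 := by
    filter_upwards [hH] with z' hz' h6
    have h3 : z' ∈ ccyl T z (3 * ℓ) := sub_cyl hy (by linarith) (show z' ∈ ccyl T y ℓ from h6)
    refine (abs_real_inner_le_norm _ _).trans ?_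
    rw [hen, one_mul]
    have : co T z' - co T y = hgt T c z' - hgt T c y := by unfold hgt; abel
    rw [this]
    refine (norm_sub_le _ _).trans ?_
    have := hz' h3
    linarith
  have hdr := drift_zpow hm hC hr hrℓ hGy e (co T y) (B := 2 * H0) (by linarith) hB
  have heC : ∫ z in {z | ‖T.starProjection (z - y)‖ ≤ ℓ}, tilt T (P z) ∂ν ≤ E0 := by
    rw [hE0]
    unfold eC
    refine setIntegral_mono_set (integrable_tilt hC).integrableOn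
      (ae_restrict_of_ae ?_) (HasSubset.Subset.eventuallyLE
        (sub_cyl (s := ℓ) hy (by linarith)))
    filter_upwards [ae_tilt hC] with y hy using hy.1
  have hbot := bottom_le hm hC hA hK hℓ hr hrℓ hσ hM0 hG hy hM hH hyH hyr hen
  have hdr2 : |ℓ ^ (-(m : ℤ)) * (∫ z', K0 T (ℓ⁻¹ • (z' - y)) * ⟪e, co T z' - co T y⟫ ∂ν) -
      r ^ (-(m : ℤ)) * ∫ z', K0 T (r⁻¹ • (z' - y)) * ⟪e, co T z' - co T y⟫ ∂ν| ≤
      7 * (2 * H0) * r ^ (-(m : ℤ)) *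
        ∫ z in {z | ‖T.starProjection (z - y)‖ ≤ ℓ}, tilt T (P z) ∂ν := hdr
  set I1 := ∫ z', K0 T (ℓ⁻¹ • (z' - y)) * ⟪e, co T z' - co T y⟫ ∂ν with hI1
  set I2 := ∫ z', K0 T (r⁻¹ • (z' - y)) * ⟪e, co T z' - co T y⟫ ∂ν with hI2
  have h10 : |ℓ ^ (-(m : ℤ)) * I1| ≤ r ^ (-(m : ℤ)) * |I2| +
      7 * (2 * H0) * r ^ (-(m : ℤ)) * E0 := by
    have h11 : |ℓ ^ (-(m : ℤ)) * I1| ≤ |ℓ ^ (-(m : ℤ)) * I1 - r ^ (-(m : ℤ)) * I2| +
        |r ^ (-(m : ℤ)) * I2| := by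
      have := abs_add_le (ℓ ^ (-(m : ℤ)) * I1 - r ^ (-(m : ℤ)) * I2) (r ^ (-(m : ℤ)) * I2)
      rwa [sub_add_cancel] at this
    have h12 : |r ^ (-(m : ℤ)) * I2| = r ^ (-(m : ℤ)) * |I2| := by
      rw [abs_mul, abs_of_pos hrm]
    have h13 : |ℓ ^ (-(m : ℤ)) * I1 - r ^ (-(m : ℤ)) * I2| ≤
        7 * (2 * H0) * r ^ (-(m : ℤ)) * E0 := hdr2.trans (by gcongr)
    linarith
  rw [abs_mul, abs_of_pos hlm] at h10
  have h15 : |I1| = ℓ ^ m * (ℓ ^ (-(m : ℤ)) * |I1|) := by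
    rw [zpow_neg, zpow_natCast]
    field_simp
  have h16 : ℓ ^ m * ℓ ^ (-(m : ℤ)) = 1 := by
    rw [zpow_neg, zpow_natCast]
    field_simp
  rw [h15]
  calc ℓ ^ m * (ℓ ^ (-(m : ℤ)) * |I1|)
      ≤ ℓ ^ m * ((σ * (ℓ ^ (-(m : ℤ)) * M) + 2 * H0 * (7 * r ^ (-(m : ℤ)) * E0)) +
        7 * (2 * H0) * r ^ (-(m : ℤ)) * E0) := by
        gcongr
        linarith
    _ = σ * M * (ℓ ^ m * ℓ ^ (-(m : ℤ))) + 28 * ℓ ^ m * (H0 * E0 * r ^ (-(m : ℤ))) := by ring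
    _ = _ := by rw [h16, mul_one]

/-- the field is small at collapsed points -/
lemma norm_U_le (hm : 1 ≤ m) (hC : CylStat m T G h ν P) {A : ℝ}
    (hA : 1 ≤ A) (hK : BK T A (K0 T)) {c : E} {η : E → ℝ} (hη : VW T c 2 A η) {z y : E}
    {ℓ r σ H0 M : ℝ} (hM0 : 0 ≤ M) (hℓ : 0 < ℓ) (hr : 0 < r) (hrℓ : r ≤ ℓ) (hσ : 0 ≤ σ)
    (hG : InG T G z (3 * ℓ)) (hy : y ∈ ccyl T z ℓ)
    (hH : ∀ᵐ y ∂ν, y ∈ ccyl T z (3 * ℓ) → ‖hgt T c y‖ ≤ H0) (hH1 : H0 ≤ 1)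
    (hyH : ‖hgt T c y‖ ≤ H0)
    (hyr : ∀ᵐ y' ∂ν, y' ∈ ccyl T y r → ‖co T (y' - y)‖ ≤ σ)
    (hM : ν.real (ccyl T z (3 * ℓ)) ≤ M) :
    ‖Ufield T c ν (K0 T) η ℓ y‖ ≤ (Module.finrank ℝ E : ℝ) * (M + 28 * ℓ ^ m) *
      (σ + H0 * eC T ν P z (3 * ℓ) * r ^ (-(m : ℤ))) := by
  have hcomp := comp_le hm hC hA hK hη hM0 hℓ hr hrℓ hσ hG hy hH hH1 hyH hyr hM
  have hE00 : 0 ≤ eC T ν P z (3 * ℓ) := eC_nonneg hC z _
  set E0 := eC T ν P z (3 * ℓ) with hE0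
  have hHp : 0 ≤ H0 := (norm_nonneg _).trans hyH
  have hrm : 0 < r ^ (-(m : ℤ)) := by positivity
  have hUn : ‖Ufield T c ν (K0 T) η ℓ y‖ ≤ (Module.finrank ℝ E : ℝ) *
      (σ * M + 28 * ℓ ^ m * (H0 * E0 * r ^ (-(m : ℤ)))) := by
    have e3 : Ufield T c ν (K0 T) η ℓ y =
        ∑ j, (NF ν (K0 T) η ℓ y * ⟪stdOrthonormalBasis ℝ E j, hgt T c y⟫ -
        WF T c ν (K0 T) η ℓ j y) • stdOrthonormalBasis ℝ E j := by
      rw [Ufield, UF]
      simp only [sub_smul]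
      rw [Finset.sum_sub_distrib]
      congr 1
      conv_lhs => rw [← (stdOrthonormalBasis ℝ E).sum_repr' (hgt T c y)]
      rw [Finset.smul_sum]
      refine Finset.sum_congr rfl fun j _ => ?_
      rw [smul_smul]
    rw [e3]
    exact norm_sum_basis_le hcomp
  refine hUn.trans ?_
  have hX : 0 ≤ H0 * E0 * r ^ (-(m : ℤ)) := by positivity
  have hl : 0 ≤ 28 * ℓ ^ m := by positivity
  have e5 : σ * M + 28 * ℓ ^ m * (H0 * E0 * r ^ (-(m : ℤ))) ≤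
      (M + 28 * ℓ ^ m) * (σ + H0 * E0 * r ^ (-(m : ℤ))) := by
    have := mul_nonneg hM0 hX
    have := mul_nonneg hl hσ
    linarith
  rw [mul_assoc (Module.finrank ℝ E : ℝ)]
  exact mul_le_mul_of_nonneg_left e5 (Nat.cast_nonneg _)

/-- lower bound of the mass part -/
lemma NF_ge (hC : CylStat m T G h ν P) {A : ℝ}
    (hA : 1 ≤ A) (hK : BK T A (K0 T)) {c : E} {η : E → ℝ} (hη : VW T c 2 A η) {z y : E}
    {ℓ c0 H0 : ℝ} (hℓ : 0 < ℓ) (hy : y ∈ ccyl T z ℓ)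
    (hH : ∀ᵐ y ∂ν, y ∈ ccyl T z (3 * ℓ) → ‖hgt T c y‖ ≤ H0) (hH1 : H0 ≤ 1)
    (hlow : c0 ≤ ν.real (ccyl T y (ℓ / 2))) : 27 / 64 * c0 ≤ NF ν (K0 T) η ℓ y := by
  have hfin := hC.fin
  have h1 : NF ν (K0 T) η ℓ y = ∫ z', η z' • K0 T (ℓ⁻¹ • (z' - y)) ∂ν := rfl
  have hint0 := integrable_ker_mul (ν := ν) hA hK hη.smooth (fun z => hη.abs_le z) ℓ⁻¹ y
  have h2 : ∫ z', (ccyl T y (ℓ / 2)).indicator (fun _ => (27 / 64 : ℝ)) z' ∂ν ≤
      ∫ z', η z' • K0 T (ℓ⁻¹ • (z' - y)) ∂ν := by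
    refine integral_mono_ae ((integrable_const _).indicator (measurableSet_ccyl T y _))
      hint0 ?_
    filter_upwards [hH] with z' hz'
    by_cases h3 : z' ∈ ccyl T y (ℓ / 2)
    · rw [indicator_of_mem h3]
      have h5 : ‖hgt T c z'‖ ≤ 1 := (hz' (sub_cyl hy (by linarith) h3)).trans hH1
      rw [hη.one z' (h5.trans (by norm_num)), one_smul]
      exact hK.low_ker hℓ h3
    · rw [indicator_of_notMem h3, smul_eq_mul]
      exact mul_nonneg (hη.nonneg _) (hK.nonneg _)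
  rw [integral_indicator (measurableSet_ccyl T y _), setIntegral_const, smul_eq_mul] at h2
  rw [h1]
  linarith

end Vale.Agent.P214.CLS
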