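import Vale.Agent.P214.CLS.Main
import Vale.Agent.P214.CLS.Plateau

/-!
# P214, block CLS, part 10: the collapse lemma at unit scale (for R2-C)
-/

open Set Filter Topology MeasureTheory Metric
open scoped RealInnerProductSpace ENNReal

set_option linter.all false

namespace Vale.Agent.P214.CLS

open Vale.Agent.P214.FV

variable {E : Type*} [NormedAddCommGroup E] [InnerProductSpace ℝ E] [FiniteDimensional ℝ E]
variable [MeasurableSpace E] [BorelSpace E]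
variable {m : ℕ} {T : Submodule ℝ E} {G : Set E} {h : ℝ} {ν : Measure E} {P : E → E →L[ℝ] E}

lemma final_num {q I B1 σ' s κ2 E0 w Cf X a : ℝ} (hq0 : 0 < q)
    (h : q ^ 2 * I ≤ 2 * (64 / 27) * (B1 * σ' * s) + κ2 * E0 * w)
    (hCf : Cf = (q ^ 2)⁻¹ * (2 * (64 / 27) * (B1 * (a + 1)) + κ2))
    (hσ' : σ' = (a + 1) * X) (hB1 : 0 ≤ B1) (ha : 0 ≤ a) (hE0 : 0 ≤ E0) (hκ2 : 0 ≤ κ2)
    (hw : 0 ≤ w) (hX : 0 ≤ X) (hs : 0 ≤ s) :
    I ≤ Cf * X * s + Cf * E0 * w := by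
  have hq2 : 0 < q ^ 2 := by positivity
  have h8 : I ≤ (q ^ 2)⁻¹ * (2 * (64 / 27) * (B1 * σ' * s) + κ2 * E0 * w) := by
    rw [inv_mul_eq_div, le_div_iff₀ hq2]
    linarith
  refine h8.trans ?_
  rw [hCf, hσ']
  have hiq : 0 ≤ (q ^ 2)⁻¹ := by positivity
  have i1 : 0 ≤ (q ^ 2)⁻¹ * κ2 * (X * s) := by positivity
  have i2 : 0 ≤ (q ^ 2)⁻¹ * (2 * (64 / 27) * (B1 * (a + 1))) * (E0 * w) := by positivity
  calc _ = (q ^ 2)⁻¹ * (2 * (64 / 27) * (B1 * (a + 1))) * (X * s) +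
        (q ^ 2)⁻¹ * κ2 * (E0 * w) := by ring
    _ ≤ (q ^ 2)⁻¹ * (2 * (64 / 27) * (B1 * (a + 1))) * (X * s) +
        (q ^ 2)⁻¹ * κ2 * (E0 * w) +
        ((q ^ 2)⁻¹ * κ2 * (X * s) +
        (q ^ 2)⁻¹ * (2 * (64 / 27) * (B1 * (a + 1))) * (E0 * w)) := by linarith
    _ = _ := by ring

/-- **Collapse lemma** at unit scale `ℓ`. -/
theorem col_of (hm : 1 ≤ m) (M c0 ℓ : ℝ)
    (hM0 : 0 ≤ M) (hc0 : 0 < c0) (hℓ : 0 < ℓ) :
    ∃ C, 0 ≤ C ∧ ∀ (T : Submodule ℝ E) (G : Set E) (h : ℝ) (ν : Measure E) (P : E → E →L[ℝ] E),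
      CylStat m T G h ν P → ∀ (z c : E) (H0 r σ : ℝ), InG T G z (3 * ℓ) →
      (∀ᵐ y ∂ν, y ∈ ccyl T z (3 * ℓ) → ‖co T y - c‖ ≤ H0) → H0 ≤ 1 →
      eC T ν P z (3 * ℓ) ≤ 1 → ν.real (ccyl T z (3 * ℓ)) ≤ M →
      (∀ x ∈ ccyl T z ℓ, c0 ≤ ν.real (ccyl T x (ℓ / 2))) → 0 < r → r ≤ ℓ → 0 < σ →
      ∀ W : Set E, MeasurableSet W → W ⊆ ccyl T z ℓ →
      (∀ᵐ y ∂ν, y ∈ W → ∀ᵐ y' ∂ν, y' ∈ ccyl T y r → ‖co T (y' - y)‖ ≤ σ) →
      ∫ y in W, tilt T (P y) ∂ν ≤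
        C * (σ + H0 * eC T ν P z (3 * ℓ) * r ^ (-(m : ℤ))) * √(eC T ν P z (3 * ℓ)) +
          C * eC T ν P z (3 * ℓ) * ν.real W := by
  obtain ⟨A1, hA1, hwin, -⟩ := exists_windows E
  obtain ⟨A2, hA2, hker⟩ := exists_BK0 E
  set A := max A1 A2 with hA
  have hA1' : 1 ≤ A := hA1.trans (le_max_left _ _)
  set d : ℝ := (Module.finrank ℝ E : ℝ) with hd
  have hd0 : 0 ≤ d := Nat.cast_nonneg _
  set κ := kap' E m A ℓ M 0 1 1 1 with hκ
  set Λ := Lam E m A ℓ M 0 0 1 0 1 with hΛ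
  set κ1 := kap E m A ℓ M 0 1 1 1 with hκ1
  have hA0 : 0 < A := by linarith
  have hκ0 : 0 ≤ κ := by rw [hκ]; unfold kap'; positivity
  have hk0 : 0 ≤ k0 m A ℓ M 0 := by unfold k0; positivity
  have hΛ0 : 0 ≤ Λ := by rw [hΛ]; unfold Lam; positivity
  -- constants
  set a : ℝ := d * (M + 28 * ℓ ^ m) with ha
  have ha0 : 0 ≤ a := by positivity
  set B1 : ℝ := 3 * (A / (2 * ℓ) * √κ * (√M * √(1 + M)) + Λ * (1 + M)) with hB1
  have hB10 : 0 ≤ B1 := by positivity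
  set q : ℝ := 27 / 64 * c0 with hq
  have hq0 : 0 < q := by positivity
  set Cf : ℝ := (q ^ 2)⁻¹ * (2 * (64 / 27) * (B1 * (a + 1)) + 2 * m * κ1 ^ 2) with hCf
  have hCf0 : 0 ≤ Cf := by positivity
  refine ⟨Cf, hCf0, ?_⟩
  intro T G h ν P hC z c H0 r σ hG hH hH1 hE1 hMm hlow hr hrℓ hσ W hWm hWz hWr
  have hfin := hC.fin
  obtain ⟨η, hη'⟩ := hwin T c 2 two_pos
  have hη : VW T c 2 A η := hη'.mono two_pos (le_max_left _ _)
  have hK : BK T A (K0 T) := (hker T).mono (le_max_right _ _)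
  set E0 := eC T ν P z (3 * ℓ) with hE0
  have hE00 : 0 ≤ E0 := eC_nonneg hC z _
  have h2l : 2 * ℓ + ℓ = 3 * ℓ := by ring
  have hHh : ∀ᵐ y ∂ν, y ∈ ccyl T z (3 * ℓ) → ‖hgt T c y‖ ≤ H0 := hH
  have hL : LB T c η ν z (2 * ℓ + ℓ) 0 0 1 1 0 1 := by
    refine LB_plateau hη one_lt_two ?_
    rw [h2l]
    filter_upwards [hHh] with y hy h1 using (hy h1).trans hH1
  have hG' : InG T G z (2 * ℓ + ℓ) := by rw [h2l]; exact hG
  have hMx : ∀ x ∈ ccyl T z (2 * ℓ), ν.real (ccyl T x ℓ) ≤ M := by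
    intro x hx
    refine le_trans (measureReal_mono ?_) hMm
    have := ccyl_subset (r := ℓ) hx
    rwa [h2l] at this
  have hm2 : ν.real (ccyl T z (2 * ℓ)) ≤ M := by
    refine le_trans (measureReal_mono ?_) hMm
    intro y hy
    exact (show ‖T.starProjection (y - z)‖ ≤ 2 * ℓ from hy).trans (by linarith)
  have hMx2 : ∀ x ∈ ccyl T z (2 * ℓ + ℓ), ν.real (ccyl T x ℓ ∩ ccyl T z (2 * ℓ)) ≤ M :=
    fun x _ => (measureReal_mono inter_subset_right).trans hm2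
  set U := Ufield T c ν (K0 T) η ℓ with hU
  set σ' : ℝ := (a + 1) * (σ + H0 * E0 * r ^ (-(m : ℤ))) with hσ'
  have hrm : 0 < r ^ (-(m : ℤ)) := by positivity
  have hUW : ∀ᵐ y ∂ν, y ∈ W → ‖U y‖ ≤ σ' ∧ 0 ≤ H0 := by
    filter_upwards [hHh, hWr] with y hy hyr hyW
    have hyz := hWz hyW
    have hyH := hy (sub_cyl (s := 0) (ℓ := ℓ) hyz (by linarith) (by simp [ccyl]))
    have hHp : 0 ≤ H0 := (norm_nonneg _).trans hyH
    refine ⟨?_, hHp⟩
    have h1 := norm_U_le hm hC hA1' hK hη hM0 hℓ hr hrℓ hσ.le hG hyz hHh hH1 hyH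
      (hyr hyW) hMm
    refine h1.trans ?_
    rw [hσ', ← hE0, ← hd, ← ha]
    have : 0 ≤ σ + H0 * E0 * r ^ (-(m : ℤ)) := by positivity
    linarith
  -- trivial case: `W` null
  by_cases hW0 : ν W = 0
  · have h1 : ∫ y in W, tilt T (P y) ∂ν = 0 := by
      rw [Measure.restrict_eq_zero.2 hW0]; simp
    have h2 : ν.real W = 0 := by simp [Measure.real, hW0]
    by_cases hH0 : 0 ≤ H0
    · rw [h1, h2]; positivity
    · have h3 : E0 = 0 := by
        rw [hE0]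
        unfold eC
        have : ν (ccyl T z (3 * ℓ)) = 0 := by
          rw [measure_eq_zero_iff_ae_notMem]
          filter_upwards [hHh] with y hy h4
          exact hH0 ((norm_nonneg _).trans (hy h4))
        rw [Measure.restrict_eq_zero.2 this]; simp
      rw [h1, h3]; simp
  have hH0 : 0 ≤ H0 := by
    by_contra hneg
    apply hW0
    rw [measure_eq_zero_iff_ae_notMem]
    filter_upwards [hUW] with y hy h4
    exact hneg (hy h4).2
  have hX : 0 ≤ H0 * E0 * r ^ (-(m : ℤ)) := by positivity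
  have hσ'0 : 0 < σ' := by positivity
  have key := slab_U hC hA1' two_pos hℓ hℓ hK hη hG' hL hM0 hMx hMx2 hσ'0
  rw [h2l, ← hE0, ← hκ, ← hΛ, ← hU] at key
  have hE0s : E0 ≤ √E0 := by
    have h1 : √E0 ≤ 1 := by rw [Real.sqrt_le_one]; exact hE1
    calc E0 = √E0 * √E0 := (Real.mul_self_sqrt hE00).symm
      _ ≤ 1 * √E0 := by gcongr
      _ = √E0 := one_mul _
  have hrhs : 3 * σ' * (A / (2 * ℓ) * √κ * (√(ν.real (ccyl T z (2 * ℓ))) * √((1 + M) * E0)) +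
      (0 * √κ + Λ) * ((1 + M) * E0)) ≤ B1 * σ' * √E0 := by
    have h1 : √((1 + M) * E0) = √(1 + M) * √E0 := Real.sqrt_mul (by positivity) _
    rw [h1]
    calc _ ≤ 3 * σ' * (A / (2 * ℓ) * √κ * (√M * (√(1 + M) * √E0)) +
          (0 * √κ + Λ) * ((1 + M) * √E0)) := by gcongr
      _ = _ := by rw [hB1]; ring
  have hU1 : ContDiff ℝ 1 U := (contDiff_Ufield hA1' two_pos hK hη).of_le (by norm_num)
  have hGI : Integrable (fun y => (ker (K0 T) (2 * ℓ)⁻¹ z y * η y) * gsq U (P y) y) ν := by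
    obtain ⟨Kc, k1, k2, k3⟩ := hK.baseCpt_ker (τ := 2 * ℓ) (by linarith)
      (hG.mono (by linarith) : InG T G z (2 * ℓ))
    refine hC.integrable_gen (Φ := fun q => (ker (K0 T) (2 * ℓ)⁻¹ z q.2 * η q.2) * gsq U q.1 q.2)
      ?_ k1 k2 fun B y hy => by simp only []; rw [k3 y hy, zero_mul, zero_mul]
    exact ((((contDiff_ker hK.smooth _ z).continuous.comp continuous_snd).mul
      (hη.smooth.continuous.comp continuous_snd))).mul (continuous_gsq hU1)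
  have hgn : ∀ᵐ y ∂ν, 0 ≤ gsq U (P y) y := by
    filter_upwards [hC.proj] with y hy
    obtain ⟨S, -, hS⟩ := hy
    rw [hS]; exact gsq_nonneg U S y
  have hlow2 : ∀ᵐ y ∂ν, y ∈ W → q ^ 2 * tilt T (P y) ≤
      2 * (64 / 27) * ((ker (K0 T) (2 * ℓ)⁻¹ z y * η y) * gsq U (P y) y) +
        2 * m * κ1 ^ 2 * E0 := by
    filter_upwards [hC.proj, hHh, hgn] with y hyP hyH hyg hyW
    obtain ⟨S, hS, hP⟩ := hyP
    have hyz := hWz hyW
    have hyz' : ‖T.starProjection (y - z)‖ ≤ ℓ := hyz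
    have hyz3 : y ∈ ccyl T z (3 * ℓ) := hyz'.trans (by linarith)
    have hyH1 : ‖hgt T c y‖ ≤ 1 := (hyH hyz3).trans hH1
    have hccyl : ccyl T y ℓ ⊆ ccyl T z (2 * ℓ + ℓ) := by
      rw [h2l]; exact sub_cyl hyz (by linarith)
    have hGy : InG T G y ℓ := hG.move (by linarith)
    have hMy : ν.real (ccyl T y ℓ) ≤ M := hMx y (hyz'.trans (by linarith))
    obtain ⟨-, -, u3⟩ := U_bounds hC hA1' two_pos hℓ hK hη hL hccyl hGy hMy hyH1 hS
    rw [← hκ1, ← hU] at u3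
    rw [← hP] at u3
    have heC : eC T ν P y ℓ ≤ E0 := by
      rw [hE0]
      unfold eC
      refine setIntegral_mono_set (integrable_tilt hC).integrableOn
        (ae_restrict_of_ae ?_) (HasSubset.Subset.eventuallyLE (by rw [← h2l]; exact hccyl))
      filter_upwards [ae_tilt hC] with y hy using hy.1
    have hNF : q ≤ NF ν (K0 T) η ℓ y := NF_ge hC hA1' hK hη hℓ hyz hHh hH1 (hlow y hyz)
    have hq2 : q ^ 2 ≤ NF ν (K0 T) η ℓ y ^ 2 := by gcongr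
    have htn : 0 ≤ tilt T (P y) := by rw [hP]; exact tilt_nonneg S T
    have hχ : 27 / 64 ≤ ker (K0 T) (2 * ℓ)⁻¹ z y := by
      refine hK.low_ker (by linarith) ?_
      rw [show 2 * ℓ / 2 = ℓ by ring]
      exact hyz
    have hη1 : η y = 1 := hη.one y (hyH1.trans (by norm_num))
    rw [hη1, mul_one]
    have h6 : gsq U (P y) y ≤ 64 / 27 * (ker (K0 T) (2 * ℓ)⁻¹ z y * gsq U (P y) y) := by
      have h61 : 1 ≤ 64 / 27 * ker (K0 T) (2 * ℓ)⁻¹ z y := by linarith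
      calc gsq U (P y) y = 1 * gsq U (P y) y := (one_mul _).symm
        _ ≤ (64 / 27 * ker (K0 T) (2 * ℓ)⁻¹ z y) * gsq U (P y) y := by gcongr
        _ = _ := by ring
    have h7 : 2 * (m : ℝ) * κ1 ^ 2 * eC T ν P y ℓ ≤ 2 * m * κ1 ^ 2 * E0 := by gcongr
    calc q ^ 2 * tilt T (P y) ≤ NF ν (K0 T) η ℓ y ^ 2 * tilt T (P y) := by gcongr
      _ ≤ 2 * gsq U (P y) y + 2 * m * κ1 ^ 2 * eC T ν P y ℓ := u3
      _ ≤ _ := by linarith
  have h3 : (0 : ℝ) ≤ 2 * (64 / 27) := by norm_num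
  have hmain : q ^ 2 * ∫ y in W, tilt T (P y) ∂ν ≤
      2 * (64 / 27) * (B1 * σ' * √E0) + 2 * m * κ1 ^ 2 * E0 * ν.real W := by
    have h1 : ∫ y in W, q ^ 2 * tilt T (P y) ∂ν ≤
        ∫ y in W, (2 * (64 / 27) * ((ker (K0 T) (2 * ℓ)⁻¹ z y * η y) * gsq U (P y) y) +
        2 * m * κ1 ^ 2 * E0) ∂ν := by
      refine integral_mono_ae ((integrable_tilt hC).const_mul _).integrableOn
        ((hGI.const_mul _).add (integrable_const _)).integrableOn ?_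
      exact (ae_restrict_iff' hWm).2 hlow2
    rw [integral_const_mul] at h1
    refine h1.trans ?_
    rw [integral_add (hGI.const_mul _).integrableOn (integrable_const _).integrableOn,
      integral_const_mul, setIntegral_const, smul_eq_mul]
    have h2 : ∫ y in W, (ker (K0 T) (2 * ℓ)⁻¹ z y * η y) * gsq U (P y) y ∂ν ≤ B1 * σ' * √E0 := by
      refine le_trans ?_ (key.trans hrhs)
      have hnn : ∀ᵐ y ∂ν, 0 ≤ (ker (K0 T) (2 * ℓ)⁻¹ z y * η y) * gsq U (P y) y := by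
        filter_upwards [hgn] with y hy
        exact mul_nonneg (mul_nonneg (hK.ker_nonneg _ z y) (hη.nonneg y)) hy
      refine setIntegral_mono_set hGI.integrableOn (ae_restrict_of_ae hnn) ?_
      filter_upwards [hUW] with y hy hyW
      exact (hy hyW).1
    have h4 := mul_le_mul_of_nonneg_left h2 h3
    have h5 : ν.real W * (2 * (m : ℝ) * κ1 ^ 2 * E0) = 2 * m * κ1 ^ 2 * E0 * ν.real W := by ring
    linarith
  exact final_num (κ2 := 2 * m * κ1 ^ 2) hq0 hmain hCf hσ' hB10 ha0 hE00 (by positivity)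
    measureReal_nonneg (by positivity) (Real.sqrt_nonneg _)

end Vale.Agent.P214.CLS
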