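import Vale.Agent.P214.CLS.Col
import Vale.Agent.P214.R2F.ColProp

/-!
# P214, block CLS, part 11: `R2F.ColStmt`
-/

open Set Filter Topology MeasureTheory Metric
open scoped RealInnerProductSpace ENNReal

set_option linter.all false

namespace Vale.Agent.P214.CLS

open Vale.Agent.P214.FV

/-- **COL** in the form used by the assembly of the collapsed cells. -/
theorem colStmt (E : Type*) [NormedAddCommGroup E] [InnerProductSpace ℝ E] [FiniteDimensional ℝ E]
    [MeasurableSpace E] [BorelSpace E] {m : ℕ} (hm : 1 ≤ m) : R2F.ColStmt E m := by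
  intro M c₀ l hM hc₀ hl _
  obtain ⟨C, hC0, hmain⟩ := col_of (E := E) hm M c₀ l hM.le hc₀ hl
  refine ⟨C + 1, by linarith, ?_⟩
  intro T G h ν P hC z hz hG c H₀ r σ _ hH0 hH1 hH hE hMz hlow hr hrl hσ W hWm hWz hW
  have hpz : T.starProjection z = z := Submodule.starProjection_eq_self_iff.2 hz
  have key := hmain T G h ν P hC z c H₀ r σ (fun x hx hx2 => hG x hx (by rwa [hpz] at hx2))
    hH hH1 hE hMz ?_ hr hrl hσ W hWm hWz hW
  · have hE0 : 0 ≤ ∫ y in {y | ‖T.starProjection (y - z)‖ ≤ 3 * l}, tilt T (P y) ∂ν :=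
      eC_nonneg hC z _
    have e1 : eC T ν P z (3 * l) =
      ∫ y in {y | ‖T.starProjection (y - z)‖ ≤ 3 * l}, tilt T (P y) ∂ν := rfl
    rw [e1, zpow_neg, zpow_natCast, ← div_eq_mul_inv] at key
    set E0 := ∫ y in {y | ‖T.starProjection (y - z)‖ ≤ 3 * l}, tilt T (P y) ∂ν with hE0'
    have h1 : 0 ≤ (σ + H₀ * E0 / r ^ m) * √E0 := by positivity
    have h2 : 0 ≤ E0 * ν.real W := by positivity
    refine key.trans ?_
    nlinarith
  · intro x hx
    have h1 := hlow (T.starProjection x) (Submodule.starProjection_apply_mem _ _) (by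
      have h2 : ‖T.starProjection (x - z)‖ ≤ l := hx
      rwa [map_sub, hpz] at h2)
    have h3 : {y | ‖T.starProjection (y - T.starProjection x)‖ ≤ l / 2} = ccyl T x (l / 2) := by
      ext y
      show ‖T.starProjection (y - T.starProjection x)‖ ≤ l / 2 ↔
        ‖T.starProjection (y - x)‖ ≤ l / 2
      rw [map_sub, map_sub, star_self]
    rwa [h3] at h1

end Vale.Agent.P214.CLS
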