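import Vale.Agent.P214.CLS.Win

/-!
# P214, block CLS, part 4: the field `U(y) = ∫ K((z-y)/τ) η(z) (hgt y - hgt z) dν(z)`
-/

open Set Filter Topology MeasureTheory Metric
open scoped RealInnerProductSpace

set_option linter.all false

namespace Vale.Agent.P214.CLS

open Vale.Agent.P214.FV

variable {E : Type*} [NormedAddCommGroup E] [InnerProductSpace ℝ E] [FiniteDimensional ℝ E]

/-- closed cylinder over the base ball around (the base point of) `x` -/
def ccyl (T : Submodule ℝ E) (x : E) (r : ℝ) : Set E := {z | ‖T.starProjection (z - x)‖ ≤ r}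

lemma isClosed_ccyl (T : Submodule ℝ E) (x : E) (r : ℝ) : IsClosed (ccyl T x r) :=
  isClosed_le (by fun_prop) continuous_const

/-- the base ball lies in `G` -/
def InG (T : Submodule ℝ E) (G : Set E) (x : E) (r : ℝ) : Prop :=
  ∀ z ∈ T, ‖z - T.starProjection x‖ ≤ r → z ∈ G

lemma InG.mono {T : Submodule ℝ E} {G : Set E} {x : E} {r r' : ℝ} (h : InG T G x r)
    (hr : r' ≤ r) : InG T G x r' := fun z hz h1 => h z hz (h1.trans hr)

lemma InG.move {T : Submodule ℝ E} {G : Set E} {x y : E} {r r' : ℝ} (h : InG T G x r)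
    (hr : ‖T.starProjection (y - x)‖ + r' ≤ r) : InG T G y r' := fun z hz h1 => by
  refine h z hz ?_
  rw [map_sub] at hr
  calc ‖z - T.starProjection x‖ = ‖(z - T.starProjection y) +
        (T.starProjection y - T.starProjection x)‖ := by congr 1; abel
    _ ≤ ‖z - T.starProjection y‖ + ‖T.starProjection y - T.starProjection x‖ := norm_add_le _ _
    _ ≤ r := by linarith

section ker
variable {T : Submodule ℝ E} {A : ℝ} {K : E → ℝ} {τ : ℝ}

lemma BK.base_ker (hK : BK T A K) (s : ℝ) (x z : E) :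
    ker K s x (T.starProjection z) = ker K s x z := by
  unfold ker
  rw [← hK.base (s • (T.starProjection z - x)), ← hK.base (s • (z - x))]
  congr 1
  rw [map_smul, map_smul, map_sub, map_sub, star_self]

lemma BK.base_ker' (hK : BK T A K) (s : ℝ) (x z : E) :
    ker K s (T.starProjection x) z = ker K s x z := by
  unfold ker
  rw [← hK.base (s • (z - T.starProjection x)), ← hK.base (s • (z - x))]
  congr 1
  rw [map_smul, map_smul, map_sub, map_sub, star_self]

lemma BK.ker_off (hK : BK T A K) (hτ : 0 < τ) {x z : E} (hz : z ∉ ccyl T x τ) :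
    ker K τ⁻¹ x z = 0 := by
  unfold ker
  refine hK.supp _ ?_
  have : τ < ‖T.starProjection (z - x)‖ := not_le.1 hz
  rw [map_smul, norm_smul, Real.norm_eq_abs, abs_of_pos (inv_pos.2 hτ), inv_mul_eq_div,
    one_le_div hτ]
  exact this.le

lemma BK.fderiv_ker_off (hK : BK T A K) (hτ : 0 < τ) {x z : E} (hz : z ∉ ccyl T x τ) :
    fderiv ℝ (ker K τ⁻¹ x) z = 0 ∧ fderiv ℝ (fderiv ℝ (ker K τ⁻¹ x)) z = 0 :=
  fderiv_zero_of_open (isClosed_ccyl T x τ).isOpen_compl (fun y hy => hK.ker_off hτ hy) hz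

lemma BK.ker_nonneg (hK : BK T A K) (s : ℝ) (x z : E) : 0 ≤ ker K s x z := hK.nonneg _

lemma BK.abs_ker_le (hK : BK T A K) (s : ℝ) (x z : E) : |ker K s x z| ≤ 1 := by
  rw [abs_of_nonneg (hK.ker_nonneg s x z)]; exact hK.le_one _

lemma BK.norm_fderiv_ker (hK : BK T A K) (hτ : 0 < τ) (x z : E) :
    ‖fderiv ℝ (ker K τ⁻¹ x) z‖ ≤ A / τ := by
  rw [(hasFDerivAt_ker hK.smooth _ x z).fderiv, norm_smul, Real.norm_eq_abs,
    abs_of_pos (inv_pos.2 hτ), inv_mul_eq_div]
  gcongr
  exact hK.n1 _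

lemma BK.norm_fderiv2_ker (hK : BK T A K) (hτ : 0 < τ) (x z : E) :
    ‖fderiv ℝ (fderiv ℝ (ker K τ⁻¹ x)) z‖ ≤ A / τ ^ 2 := by
  rw [(hasFDerivAt_fderiv_ker hK.smooth _ x z).fderiv]
  have hA0 : 0 ≤ A := (norm_nonneg _).trans (hK.n1 0)
  refine ContinuousLinearMap.opNorm_le_bound₂ _ (by positivity) fun u v => ?_
  have h1 := ContinuousLinearMap.le_opNorm₂ (fderiv ℝ (fderiv ℝ K) (τ⁻¹ • (z - x))) u v
  have h2 := hK.n2 (τ⁻¹ • (z - x))
  simp only [ContinuousLinearMap.smul_apply, smul_eq_mul]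
  rw [norm_mul, Real.norm_eq_abs, abs_of_pos (by positivity : (0:ℝ) < τ⁻¹ ^ 2)]
  calc _ ≤ τ⁻¹ ^ 2 * (A * ‖u‖ * ‖v‖) := by
        gcongr
        exact h1.trans (by gcongr)
    _ = _ := by field_simp

lemma BK.baseCpt_ker (hK : BK T A K) (hτ : 0 < τ) {G : Set E} {x : E} (hG : InG T G x τ) :
    BaseCpt T G (ker K τ⁻¹ x) := by
  refine ⟨closedBall (T.starProjection x) τ ∩ T, ?_, ?_, ?_⟩
  · exact (isCompact_closedBall _ _).inter_right T.closed_of_finiteDimensional
  · rintro z ⟨h1, h2⟩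
    exact hG z h2 (by simpa [dist_eq_norm] using h1)
  · intro y hy
    refine hK.ker_off hτ fun h1 => hy ⟨?_, T.starProjection_apply_mem y⟩
    rw [mem_closedBall, dist_eq_norm, ← map_sub]
    exact h1

lemma BK.low_ker (hK : BK T A K) (hτ : 0 < τ) {x z : E} (hz : z ∈ ccyl T x (τ / 2)) :
    27 / 64 ≤ ker K τ⁻¹ x z := by
  unfold ker
  refine hK.low _ ?_
  have : ‖T.starProjection (z - x)‖ ≤ τ / 2 := hz
  rw [map_smul, norm_smul, Real.norm_eq_abs, abs_of_pos (inv_pos.2 hτ), inv_mul_eq_div,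
    div_le_iff₀ hτ]
  linarith

lemma BK.kb (hK : BK T A K) (hA : 1 ≤ A) : KB K A :=
  ⟨hK.smooth, fun u => by
    rw [Real.norm_eq_abs, abs_of_nonneg (hK.nonneg u)]; exact (hK.le_one u).trans hA, hK.n1, hK.n2⟩

end ker

/-- second derivative as the derivative of the derivative at a fixed vector -/
lemma fderiv2_apply {F : Type*} [NormedAddCommGroup F] [NormedSpace ℝ F] {g : E → F}
    (hg : ContDiff ℝ 2 g) (y u v : E) :
    fderiv ℝ (fderiv ℝ g) y u v = fderiv ℝ (fun z => fderiv ℝ g z v) y u := by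
  have h1 : ContDiff ℝ 1 (fderiv ℝ g) := hg.fderiv_right (by norm_num)
  have h2 : HasFDerivAt (fun z => fderiv ℝ g z v)
      ((ContinuousLinearMap.apply ℝ F v).comp (fderiv ℝ (fderiv ℝ g) y)) y :=
    (ContinuousLinearMap.apply ℝ F v).hasFDerivAt.comp y
      (h1.differentiable (by norm_num) y).hasFDerivAt
  rw [h2.fderiv]
  rfl

variable [MeasurableSpace E] [BorelSpace E]

lemma measurableSet_ccyl (T : Submodule ℝ E) (x : E) (r : ℝ) : MeasurableSet (ccyl T x r) :=
  (isClosed_ccyl T x r).measurableSet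

/-- `∫ tilt` over the closed cylinder -/
noncomputable def eC (T : Submodule ℝ E) (ν : Measure E) (P : E → E →L[ℝ] E) (x : E) (r : ℝ) : ℝ :=
  ∫ y in ccyl T x r, tilt T (P y) ∂ν

/-- `∫ √tilt` over the closed cylinder -/
noncomputable def sC (T : Submodule ℝ E) (ν : Measure E) (P : E → E →L[ℝ] E) (x : E) (r : ℝ) : ℝ :=
  ∫ y in ccyl T x r, √(tilt T (P y)) ∂ν

variable {m : ℕ} {T : Submodule ℝ E} {G : Set E} {h : ℝ} {ν : Measure E} {P : E → E →L[ℝ] E}

lemma eC_nonneg (hC : CylStat m T G h ν P) (x : E) (r : ℝ) : 0 ≤ eC T ν P x r := by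
  refine integral_nonneg_of_ae (ae_restrict_of_ae ?_)
  filter_upwards [ae_tilt hC] with y hy using hy.1

lemma sC_nonneg (x : E) (r : ℝ) : 0 ≤ sC T ν P x r :=
  integral_nonneg fun y => Real.sqrt_nonneg _

/-- Cauchy-Schwarz -/
lemma sC_le (hC : CylStat m T G h ν P) (x : E) (r : ℝ) :
    sC T ν P x r ≤ √(ν.real (ccyl T x r)) * √(eC T ν P x r) := by
  have hfin := hC.fin
  have h1 : Integrable (fun y => tilt T (P y)) (ν.restrict (ccyl T x r)) :=
    (integrable_tilt hC).integrableOn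
  have ht : ∀ᵐ y ∂(ν.restrict (ccyl T x r)), 0 ≤ tilt T (P y) :=
    ae_restrict_of_ae (by filter_upwards [ae_tilt hC] with y hy using hy.1)
  have hm : AEStronglyMeasurable (fun y => √(tilt T (P y))) (ν.restrict (ccyl T x r)) :=
    (integrable_sqrt_tilt hC).aestronglyMeasurable.restrict
  have h2 : MemLp (fun y => √(tilt T (P y))) (ENNReal.ofReal 2) (ν.restrict (ccyl T x r)) := by
    rw [show ENNReal.ofReal 2 = 2 by norm_num]
    rw [memLp_two_iff_integrable_sq hm]
    refine h1.congr ?_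
    filter_upwards [ht] with y hy
    rw [Real.sq_sqrt hy]
  have h3 : MemLp (fun _ : E => (1 : ℝ)) (ENNReal.ofReal 2) (ν.restrict (ccyl T x r)) :=
    memLp_const 1
  have key := integral_mul_le_Lp_mul_Lq_of_nonneg (μ := ν.restrict (ccyl T x r))
    (p := 2) (q := 2) (f := fun _ => (1 : ℝ)) (g := fun y => √(tilt T (P y)))
    Real.HolderConjugate.two_two (Eventually.of_forall fun _ => zero_le_one)
    (Eventually.of_forall fun _ => Real.sqrt_nonneg _) h3 h2
  have e1 : ∫ y in ccyl T x r, (√(tilt T (P y))) ^ (2 : ℝ) ∂ν = eC T ν P x r := by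
    refine integral_congr_ae ?_
    filter_upwards [ht] with y hy
    rw [Real.rpow_two, Real.sq_sqrt hy]
  have e2 : ∫ y in ccyl T x r, (1 : ℝ) ^ (2 : ℝ) ∂ν = ν.real (ccyl T x r) := by
    simp
  rw [e1, e2, ← Real.sqrt_eq_rpow, ← Real.sqrt_eq_rpow] at key
  simpa [sC] using key

section est
variable {c : E} {R A τ : ℝ} {K η : E → ℝ}

/-- the three estimates for the scalar kernel integrals -/
lemma kint_est (hC : CylStat m T G h ν P) (hA : 1 ≤ A) (hK : BK T A K) (hτ : 0 < τ) {x : E}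
    (hG : InG T G x τ) {Φ : E → ℝ} (hΦ : ContDiff ℝ 2 Φ)
    (hΦv : ∀ y, Φ (Tᗮ.starProjection y) = Φ y) {B b0 b1 b2 : ℝ}
    (hΦb : ∀ᵐ z ∂ν, ‖Φ z‖ ≤ B) (hb00 : 0 ≤ b0) (hb10 : 0 ≤ b1) (hb20 : 0 ≤ b2)
    (hb0 : ∀ᵐ y ∂ν, y ∈ ccyl T x τ → |Φ y| ≤ b0)
    (hb1 : ∀ᵐ y ∂ν, y ∈ ccyl T x τ → ‖fderiv ℝ Φ y‖ ≤ b1)
    (hb2 : ∀ᵐ y ∂ν, y ∈ ccyl T x τ → ‖fderiv ℝ (fderiv ℝ Φ) y‖ ≤ b2) :
    ‖fderiv ℝ (kint ν K τ⁻¹ Φ) x‖ ≤ b0 * (A / τ) * eC T ν P x τ + b1 * sC T ν P x τ ∧
    |SL.lapT T (kint ν K τ⁻¹ Φ) x| ≤ (b0 * (A / τ ^ 2) + b2) * eC T ν P x τ ∧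
    ‖fderiv ℝ (fderiv ℝ (kint ν K τ⁻¹ Φ)) x‖ ≤ b0 * (A / τ ^ 2) * ν.real (ccyl T x τ) ∧
    |kint ν K τ⁻¹ Φ x| ≤ b0 * ν.real (ccyl T x τ) := by
  have hfin := hC.fin
  have hA0 : 0 < A := by linarith
  have hKB := hK.kb hA
  have hΦm : AEStronglyMeasurable Φ ν := hΦ.continuous.aestronglyMeasurable
  have hψ := contDiff_ker (s := τ⁻¹) hK.smooth (x := x)
  have hbase : ∀ z, ker K τ⁻¹ x (T.starProjection z) = ker K τ⁻¹ x z := hK.base_ker _ x
  have hcpt := hK.baseCpt_ker hτ hG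
  have he0 := eC_nonneg hC x τ
  have hs0 : 0 ≤ sC T ν P x τ := sC_nonneg x τ
  refine ⟨?_, ?_, ?_, ?_⟩
  · refine ContinuousLinearMap.opNorm_le_bound _ (by positivity) fun u => ?_
    rw [fderiv_kint_apply hKB hΦm hΦb, norm_neg, Real.norm_eq_abs]
    have := first_le hC (hψ.of_le (by norm_num)) hbase hcpt (hΦ.of_le (by norm_num)) hΦv
      (measurableSet_ccyl T x τ) (fun y hy => ⟨hK.ker_off hτ hy, (hK.fderiv_ker_off hτ hy).1⟩)
      hb00 hb10 (fun y => hK.abs_ker_le _ x y) (fun y => hK.norm_fderiv_ker hτ x y) hb0 hb1 u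
    refine this.trans (le_of_eq ?_)
    unfold eC sC
    ring
  · have e1 : SL.lapT T (kint ν K τ⁻¹ Φ) x = ∫ z, Φ z * SL.lapT T (ker K τ⁻¹ x) z ∂ν := by
      unfold SL.lapT
      simp only [fderiv2_kint_apply hKB hΦm hΦb]
      rw [← integral_finsetSum]
      · refine integral_congr_ae (Eventually.of_forall fun z => ?_)
        simp only
        rw [Finset.mul_sum]
      · intro k _
        have hc : Continuous fun z => fderiv ℝ (fderiv ℝ (ker K τ⁻¹ x)) z
            (T.starProjection (stdOrthonormalBasis ℝ E k))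
            (T.starProjection (stdOrthonormalBasis ℝ E k)) :=
          (((hψ.fderiv_right (m := 1) (by norm_num)).continuous_fderiv (by norm_num)).clm_apply
            continuous_const).clm_apply continuous_const
        refine Integrable.mono' (integrable_const (B * (A / τ ^ 2 * 1 * 1)))
          (hΦ.continuous.mul hc).aestronglyMeasurable ?_
        filter_upwards [hΦb] with z hz
        rw [norm_mul]
        refine mul_le_mul hz ?_ (norm_nonneg _) ((norm_nonneg _).trans hz)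
        have hn : ‖T.starProjection (stdOrthonormalBasis ℝ E k)‖ ≤ 1 := by
          have := norm_star_le T (stdOrthonormalBasis ℝ E k)
          rwa [(stdOrthonormalBasis ℝ E).norm_eq_one] at this
        refine (ContinuousLinearMap.le_opNorm₂ _ _ _).trans ?_
        have := hK.norm_fderiv2_ker hτ x z
        gcongr
    rw [e1]
    have := second_le hC hψ hbase hcpt hΦ hΦv
      (measurableSet_ccyl T x τ) (fun y hy => ⟨hK.ker_off hτ hy, (hK.fderiv_ker_off hτ hy).2⟩)
      hb00 hb20 (fun y => hK.abs_ker_le _ x y) (fun y => hK.norm_fderiv2_ker hτ x y) hb0 hb2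
    refine this.trans (le_of_eq ?_)
    unfold eC
    ring
  · refine ContinuousLinearMap.opNorm_le_bound₂ _ (by positivity) fun u v => ?_
    rw [fderiv2_kint_apply hKB hΦm hΦb]
    have hg : Integrable (fun _ : E => b0 * (A / τ ^ 2) * ‖u‖ * ‖v‖) ν := integrable_const _
    have := abs_integral_le_set (ν := ν) (A := ccyl T x τ)
      (f := fun z => Φ z * fderiv ℝ (fderiv ℝ (ker K τ⁻¹ x)) z u v) (measurableSet_ccyl T x τ)
      ?_ hg
    · rw [Real.norm_eq_abs]
      refine this.trans (le_of_eq ?_)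
      rw [setIntegral_const, smul_eq_mul]
      ring
    · filter_upwards [hb0] with z hz0
      by_cases hz : z ∈ ccyl T x τ
      · rw [indicator_of_mem hz, abs_mul]
        calc _ ≤ b0 * (A / τ ^ 2 * ‖u‖ * ‖v‖) := by
              refine mul_le_mul (hz0 hz) ?_ (abs_nonneg _) hb00
              rw [← Real.norm_eq_abs]
              refine (ContinuousLinearMap.le_opNorm₂ _ _ _).trans ?_
              have := hK.norm_fderiv2_ker hτ x z
              gcongr
          _ = _ := by ring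
      · rw [indicator_of_notMem hz, (hK.fderiv_ker_off hτ hz).2]
        simp
  · have hg : Integrable (fun _ : E => b0) ν := integrable_const _
    have := abs_integral_le_set (ν := ν) (A := ccyl T x τ)
      (f := fun z => Φ z * ker K τ⁻¹ x z) (measurableSet_ccyl T x τ)
      ?_ hg
    · refine this.trans (le_of_eq ?_)
      rw [setIntegral_const, smul_eq_mul]
      ring
    · filter_upwards [hb0] with z hz0
      by_cases hz : z ∈ ccyl T x τ
      · rw [indicator_of_mem hz, abs_mul]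
        have := hK.abs_ker_le τ⁻¹ x z
        calc _ ≤ b0 * 1 := mul_le_mul (hz0 hz) this (abs_nonneg _) hb00
          _ = _ := mul_one _
      · rw [indicator_of_notMem hz, hK.ker_off hτ hz]
        simp

end est

end Vale.Agent.P214.CLS
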