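import Vale.Agent.P214.CLS.Alg

/-!
# P214, block CLS, part 6: double integrals of the tilt
-/

open Set Filter Topology MeasureTheory Metric
open scoped RealInnerProductSpace ENNReal

set_option linter.all false

namespace Vale.Agent.P214.CLS

open Vale.Agent.P214.FV

variable {E : Type*} [NormedAddCommGroup E] [InnerProductSpace ℝ E] [FiniteDimensional ℝ E]
  [MeasurableSpace E] [BorelSpace E]
variable {m : ℕ} {T : Submodule ℝ E} {G : Set E} {h : ℝ} {ν : Measure E} {P : E → E →L[ℝ] E}

/-- `(y, z)` with base distance at most `r` -/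
def near (T : Submodule ℝ E) (r : ℝ) : Set (E × E) := {q | ‖T.starProjection (q.2 - q.1)‖ ≤ r}

lemma measurableSet_near (T : Submodule ℝ E) (r : ℝ) : MeasurableSet (near T r) := by
  have : IsClosed (near T r) := isClosed_le (by fun_prop) continuous_const
  exact this.measurableSet

/-- the tilt as an extended nonnegative function -/
noncomputable def te (T : Submodule ℝ E) (P : E → E →L[ℝ] E) (z : E) : ℝ≥0∞ :=
  ENNReal.ofReal (tilt T (P z))

lemma aemeasurable_te (hC : CylStat m T G h ν P) : AEMeasurable (te T P) ν :=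
  (aesm_tilt hC).aemeasurable.ennreal_ofReal

lemma eC_eq (hC : CylStat m T G h ν P) (y : E) (r : ℝ) :
    eC T ν P y r = (∫⁻ z in ccyl T y r, te T P z ∂ν).toReal := by
  unfold eC
  rw [integral_eq_lintegral_of_nonneg_ae]
  · rfl
  · exact ae_restrict_of_ae (by filter_upwards [ae_tilt hC] with y hy using hy.1)
  · exact (aesm_tilt hC).restrict

lemma lint_te_ne_top (hC : CylStat m T G h ν P) (s : Set E) :
    ∫⁻ z in s, te T P z ∂ν ≠ ∞ := by
  have h1 := (integrable_tilt hC).integrableOn (s := s)
  exact h1.lintegral_lt_top.ne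

lemma aem_eC (hC : CylStat m T G h ν P) (r : ℝ) :
    AEMeasurable (fun y => ∫⁻ z in ccyl T y r, te T P z ∂ν) ν := by
  have hfin := hC.fin
  have h1 := aemeasurable_te hC
  set g := h1.mk (te T P) with hg
  have hgm : Measurable g := h1.measurable_mk
  have hgae : te T P =ᵐ[ν] g := h1.ae_eq_mk
  have h2 : (fun y => ∫⁻ z in ccyl T y r, te T P z ∂ν) =
      fun y => ∫⁻ z, (near T r).indicator (fun q => g q.2) (y, z) ∂ν := by
    funext y
    rw [← lintegral_indicator (measurableSet_ccyl T y r)]
    refine lintegral_congr_ae ?_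
    filter_upwards [hgae] with z hz
    by_cases hy : z ∈ ccyl T y r
    · rw [indicator_of_mem hy, indicator_of_mem (show (y, z) ∈ near T r from hy), hz]
    · rw [indicator_of_notMem hy, indicator_of_notMem (show (y, z) ∉ near T r from hy)]
  rw [h2]
  have h3 : Measurable ((near T r).indicator (fun q : E × E => g q.2)) :=
    (hgm.comp measurable_snd).indicator (measurableSet_near T r)
  exact (h3.lintegral_prod_right').aemeasurable

/-- **double integral of the tilt** -/
lemma lint_double_le (hC : CylStat m T G h ν P) {z : E} {s r : ℝ} {M : ℝ≥0∞}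
    (hM : ∀ x ∈ ccyl T z (s + r), ν (ccyl T x r ∩ ccyl T z s) ≤ M) :
    ∫⁻ y in ccyl T z s, (∫⁻ w in ccyl T y r, te T P w ∂ν) ∂ν ≤
      M * ∫⁻ w in ccyl T z (s + r), te T P w ∂ν := by
  have hfin := hC.fin
  have h1 := aemeasurable_te hC
  set C2 := ccyl T z s with hC2
  have e1 : ∫⁻ y in C2, (∫⁻ w in ccyl T y r, te T P w ∂ν) ∂ν =
      ∫⁻ y, (∫⁻ w, (C2 ×ˢ univ ∩ near T r).indicator (fun q => te T P q.2) (y, w) ∂ν) ∂ν := by
    rw [← lintegral_indicator (measurableSet_ccyl T z s)]
    refine lintegral_congr fun y => ?_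
    by_cases hy : y ∈ C2
    · rw [indicator_of_mem hy, ← lintegral_indicator (measurableSet_ccyl T y r)]
      refine lintegral_congr fun w => ?_
      by_cases hw : w ∈ ccyl T y r
      · rw [indicator_of_mem hw, indicator_of_mem]
        exact ⟨⟨hy, mem_univ _⟩, hw⟩
      · rw [indicator_of_notMem hw, indicator_of_notMem]
        exact fun h => hw h.2
    · rw [indicator_of_notMem hy]
      symm
      have : ∀ w, (C2 ×ˢ univ ∩ near T r).indicator (fun q => te T P q.2) (y, w) = 0 := fun w =>
        indicator_of_notMem (fun h => hy h.1.1) _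
      simp [this]
  have hmeas : AEMeasurable (Function.uncurry fun y w =>
      (C2 ×ˢ univ ∩ near T r).indicator (fun q => te T P q.2) (y, w)) (ν.prod ν) := by
    have h2 : AEMeasurable (fun q : E × E => te T P q.2) (ν.prod ν) :=
      h1.comp_quasiMeasurePreserving Measure.quasiMeasurePreserving_snd
    exact h2.indicator (((measurableSet_ccyl T z s).prod MeasurableSet.univ).inter
      (measurableSet_near T r))
  rw [e1, lintegral_lintegral_swap hmeas, ← lintegral_const_mul'' _ h1.restrict,
    ← lintegral_indicator (measurableSet_ccyl T z (s + r))]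
  refine lintegral_mono fun w => ?_
  simp only
  by_cases hw : w ∈ ccyl T z (s + r)
  · rw [indicator_of_mem hw]
    calc ∫⁻ y, (C2 ×ˢ univ ∩ near T r).indicator (fun q => te T P q.2) (y, w) ∂ν
        ≤ ∫⁻ y, (ccyl T w r ∩ C2).indicator (fun _ => te T P w) y ∂ν := by
          refine lintegral_mono fun y => ?_
          by_cases hy : (y, w) ∈ C2 ×ˢ univ ∩ near T r
          · rw [indicator_of_mem hy, indicator_of_mem]
            refine ⟨?_, hy.1.1⟩
            have : ‖T.starProjection (w - y)‖ ≤ r := hy.2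
            show ‖T.starProjection (y - w)‖ ≤ r
            rwa [← neg_sub, map_neg, norm_neg]
          · rw [indicator_of_notMem hy]
            exact bot_le
      _ = te T P w * ν (ccyl T w r ∩ C2) := by
          rw [lintegral_indicator ((measurableSet_ccyl T w r).inter (measurableSet_ccyl T z s)),
            setLIntegral_const]
      _ ≤ M * te T P w := by
          rw [mul_comm]
          gcongr
          exact hM w hw
  · rw [indicator_of_notMem hw]
    refine le_of_eq ?_
    have : ∀ y, (C2 ×ˢ univ ∩ near T r).indicator (fun q => te T P q.2) (y, w) = 0 := by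
      intro y
      refine indicator_of_notMem (fun h => hw ?_) _
      have h1 : ‖T.starProjection (y - z)‖ ≤ s := h.1.1
      have h2 : ‖T.starProjection (w - y)‖ ≤ r := h.2
      show ‖T.starProjection (w - z)‖ ≤ s + r
      calc ‖T.starProjection (w - z)‖ = ‖T.starProjection (y - z) + T.starProjection (w - y)‖ := by
            rw [← map_add]; congr 2; abel
        _ ≤ s + r := (norm_add_le _ _).trans (add_le_add h1 h2)
    simp [this]

lemma eC_double_le (hC : CylStat m T G h ν P) {z : E} {s r M : ℝ} (hM0 : 0 ≤ M)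
    (hM : ∀ x ∈ ccyl T z (s + r), ν.real (ccyl T x r ∩ ccyl T z s) ≤ M) :
    Integrable (fun y => eC T ν P y r) (ν.restrict (ccyl T z s)) ∧
      ∫ y in ccyl T z s, eC T ν P y r ∂ν ≤ M * eC T ν P z (s + r) := by
  have hfin := hC.fin
  have hM' : ∀ x ∈ ccyl T z (s + r), ν (ccyl T x r ∩ ccyl T z s) ≤ ENNReal.ofReal M := by
    intro x hx
    rw [← ENNReal.ofReal_toReal (measure_ne_top ν (ccyl T x r ∩ ccyl T z s))]
    exact ENNReal.ofReal_le_ofReal (hM x hx)
  have h1 := lint_double_le hC hM'
  have h2 : (fun y => eC T ν P y r) = fun y => (∫⁻ z in ccyl T y r, te T P z ∂ν).toReal :=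
    funext fun y => eC_eq hC y r
  have hne : ENNReal.ofReal M * ∫⁻ w in ccyl T z (s + r), te T P w ∂ν ≠ ∞ :=
    ENNReal.mul_ne_top ENNReal.ofReal_ne_top (lint_te_ne_top hC _)
  have hne' : ∫⁻ y in ccyl T z s, (∫⁻ w in ccyl T y r, te T P w ∂ν) ∂ν ≠ ∞ :=
    ne_top_of_le_ne_top hne h1
  rw [h2]
  refine ⟨integrable_toReal_of_lintegral_ne_top (aem_eC hC r).restrict hne', ?_⟩
  rw [integral_toReal (aem_eC hC r).restrict
    (Eventually.of_forall fun y => (lint_te_ne_top hC _).lt_top)]
  calc _ ≤ (ENNReal.ofReal M * ∫⁻ w in ccyl T z (s + r), te T P w ∂ν).toReal :=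
        ENNReal.toReal_mono hne h1
    _ = _ := by rw [ENNReal.toReal_mul, ENNReal.toReal_ofReal hM0, eC_eq hC]

/-- Cauchy-Schwarz against the constant on a set -/
lemma integral_sqrt_le {ν : Measure E} [IsFiniteMeasure ν] {s : Set E} {f : E → ℝ}
    (hf : Integrable f (ν.restrict s)) (h0 : ∀ᵐ y ∂(ν.restrict s), 0 ≤ f y) :
    ∫ y in s, √(f y) ∂ν ≤ √(ν.real s) * √(∫ y in s, f y ∂ν) := by
  have hm : AEStronglyMeasurable (fun y => √(f y)) (ν.restrict s) :=
    Real.continuous_sqrt.comp_aestronglyMeasurable hf.aestronglyMeasurable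
  have h2 : MemLp (fun y => √(f y)) (ENNReal.ofReal 2) (ν.restrict s) := by
    rw [show ENNReal.ofReal 2 = 2 by norm_num]
    rw [memLp_two_iff_integrable_sq hm]
    refine hf.congr ?_
    filter_upwards [h0] with y hy
    rw [Real.sq_sqrt hy]
  have h3 : MemLp (fun _ : E => (1 : ℝ)) (ENNReal.ofReal 2) (ν.restrict s) := memLp_const 1
  have key := integral_mul_le_Lp_mul_Lq_of_nonneg (μ := ν.restrict s)
    (p := 2) (q := 2) (f := fun _ => (1 : ℝ)) (g := fun y => √(f y))
    Real.HolderConjugate.two_two (Eventually.of_forall fun _ => zero_le_one)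
    (Eventually.of_forall fun _ => Real.sqrt_nonneg _) h3 h2
  have e1 : ∫ y in s, (√(f y)) ^ (2 : ℝ) ∂ν = ∫ y in s, f y ∂ν := by
    refine integral_congr_ae ?_
    filter_upwards [h0] with y hy
    rw [Real.rpow_two, Real.sq_sqrt hy]
  have e2 : ∫ y in s, (1 : ℝ) ^ (2 : ℝ) ∂ν = ν.real s := by
    simp
  rw [e1, e2, ← Real.sqrt_eq_rpow, ← Real.sqrt_eq_rpow] at key
  simpa using key

end Vale.Agent.P214.CLS
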