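import Vale.Agent.P214.CLS.Slab

/-!
# P214, block CLS, part 8: the slab estimate for the field `U`, integrated form
-/

open Set Filter Topology MeasureTheory Metric
open scoped RealInnerProductSpace ENNReal

set_option linter.all false

namespace Vale.Agent.P214.CLS

open Vale.Agent.P214.FV

variable {E : Type*} [NormedAddCommGroup E] [InnerProductSpace ℝ E] [FiniteDimensional ℝ E]
  [MeasurableSpace E] [BorelSpace E]
variable {m : ℕ} {T : Submodule ℝ E} {G : Set E} {h : ℝ} {ν : Measure E} {P : E → E →L[ℝ] E}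

lemma integrable_eC (hC : CylStat m T G h ν P) (r : ℝ) :
    Integrable (fun y => eC T ν P y r) ν := by
  have hfin := hC.fin
  have h2 : (fun y => eC T ν P y r) = fun y => (∫⁻ z in ccyl T y r, te T P z ∂ν).toReal :=
    funext fun y => eC_eq hC y r
  rw [h2]
  refine Integrable.mono' (integrable_const (∫⁻ z, te T P z ∂ν).toReal)
    (aem_eC hC r).ennreal_toReal.aestronglyMeasurable (Eventually.of_forall fun y => ?_)
  rw [Real.norm_eq_abs, abs_of_nonneg ENNReal.toReal_nonneg]
  refine ENNReal.toReal_mono ?_ (setLIntegral_le_lintegral _ _)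
  have := lint_te_ne_top hC univ
  rwa [setLIntegral_univ] at this

lemma integrable_sqrt {ν : Measure E} [IsFiniteMeasure ν] {f : E → ℝ} (hf : Integrable f ν)
    (h0 : ∀ᵐ y ∂ν, 0 ≤ f y) : Integrable (fun y => √(f y)) ν := by
  refine Integrable.mono' ((integrable_const (1 : ℝ)).add hf)
    (Real.continuous_sqrt.comp_aestronglyMeasurable hf.aestronglyMeasurable) ?_
  filter_upwards [h0] with y hy
  rw [Real.norm_eq_abs, abs_of_nonneg (Real.sqrt_nonneg _)]
  simp only [Pi.add_apply]
  have h1 := Real.sq_sqrt hy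
  nlinarith [sq_nonneg (√(f y) - 1), Real.sqrt_nonneg (f y)]

section
variable {c : E} {R A τ : ℝ} {K η : E → ℝ}

/-- a nonnegative function has zero derivative where it vanishes -/
lemma fderiv_eq_zero_of_zero {η : E → ℝ} (h0 : ∀ y, 0 ≤ η y) {y : E} (hy : η y = 0) :
    fderiv ℝ η y = 0 := by
  have : IsLocalMin η y := Eventually.of_forall fun z => by rw [hy]; exact h0 z
  exact this.fderiv_eq_zero

lemma VW.grad_mem (hη : VW T c R A η) (y : E) : grad η y ∈ Tᗮ := by
  have h1 : Tᗮ.starProjection (grad η y) = grad η y := by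
    refine ext_inner_right ℝ fun v => ?_
    rw [inner_star, inner_grad, inner_grad]
    exact (SL.fderiv_base (T := Tᗮ) hη.vert (hη.smooth.differentiable (by norm_num)) y v).1
  rw [← h1]
  exact Submodule.starProjection_apply_mem _ _

lemma norm_grad_eq (F : E → ℝ) (y : E) : ‖grad F y‖ = ‖fderiv ℝ F y‖ := by
  unfold grad
  exact (InnerProductSpace.toDual ℝ E).symm.norm_map _

/-- **The slab estimate for `U`.** -/
theorem slab_U (hC : CylStat m T G h ν P) (hA : 1 ≤ A) (hR : 0 < R) (hτ : 0 < τ) {t : ℝ}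
    (ht : 0 < t) (hK : BK T A K) (hη : VW T c R A η) {z : E} (hG : InG T G z (2 * t + τ))
    {n1 n2 b0 b1 b2 H M : ℝ} (hL : LB T c η ν z (2 * t + τ) n1 n2 b0 b1 b2 H)
    (hM0 : 0 ≤ M) (hM : ∀ x ∈ ccyl T z (2 * t), ν.real (ccyl T x τ) ≤ M)
    (hM2 : ∀ x ∈ ccyl T z (2 * t + τ), ν.real (ccyl T x τ ∩ ccyl T z (2 * t)) ≤ M) {σ : ℝ}
    (hσ : 0 < σ) :
    ∫ y in {y | ‖Ufield T c ν K η τ y‖ ≤ σ},
      (ker K (2 * t)⁻¹ z y * η y) * gsq (Ufield T c ν K η τ) (P y) y ∂ν ≤
    3 * σ * (A / (2 * t) * √(kap' E m A τ M n1 b0 b1 H) *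
        (√(ν.real (ccyl T z (2 * t))) * √((1 + M) * eC T ν P z (2 * t + τ))) +
      (n1 * √(kap' E m A τ M n1 b0 b1 H) + Lam E m A τ M n1 n2 b0 b2 H) *
        ((1 + M) * eC T ν P z (2 * t + τ))) := by
  have hfin := hC.fin
  have hA0 : 0 < A := by linarith
  have ht2 : 0 < 2 * t := by linarith
  set U := Ufield T c ν K η τ with hU
  have hU2 : ContDiff ℝ 2 U := contDiff_Ufield hA hR hK hη
  set χ := ker K (2 * t)⁻¹ z with hχ
  set φ : E → ℝ := fun y => χ y * η y with hφ
  have hχ2 : ContDiff ℝ 2 χ := contDiff_ker hK.smooth _ z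
  have hφ1 : ContDiff ℝ 1 φ := (hχ2.mul hη.smooth).of_le (by norm_num)
  have hχ0 : ∀ y, 0 ≤ χ y := fun y => hK.ker_nonneg _ z y
  have hφ0 : ∀ y, 0 ≤ φ y := fun y => mul_nonneg (hχ0 y) (hη.nonneg y)
  have hcpt : BaseCpt T G φ := by
    obtain ⟨Kc, h1, h2, h3⟩ := hK.baseCpt_ker ht2 (hG.mono (by linarith) : InG T G z (2 * t))
    exact ⟨Kc, h1, h2, fun y hy => by simp only [hφ]; rw [hχ, h3 y hy, zero_mul]⟩
  have key := hC.slab_energy hU2 hφ1 hφ0 hcpt hσ
  refine key.trans (mul_le_mul_of_nonneg_left ?_ (by positivity))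
  set κ := kap' E m A τ M n1 b0 b1 H with hκ
  set Λ := Lam E m A τ M n1 n2 b0 b2 H with hΛ
  have hκ0 : 0 ≤ κ := by rw [hκ]; unfold kap'; positivity
  obtain ⟨q1, q2, q3, q4, q5, q6, e1, e2, w0, w1, w2, hh⟩ := id hL
  have hk0 : 0 ≤ k0 m A τ M n1 := by unfold k0; positivity
  have hΛ0 : 0 ≤ Λ := by rw [hΛ]; unfold Lam; positivity
  set f : E → ℝ := fun y => tilt T (P y) + eC T ν P y τ with hf
  have hfi : Integrable f ν := (integrable_tilt hC).add (integrable_eC hC τ)
  have hf0 : ∀ᵐ y ∂ν, 0 ≤ f y := by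
    filter_upwards [ae_tilt hC] with y hy
    exact add_nonneg hy.1 (eC_nonneg hC y τ)
  have hfs : Integrable (fun y => √(f y)) ν := integrable_sqrt hfi hf0
  set g : E → ℝ := fun y => A / (2 * t) * √κ * √(f y) + (n1 * √κ + Λ) * f y with hg
  have hgi : Integrable g ν := (hfs.const_mul _).add (hfi.const_mul _)
  have hsub : ccyl T z (2 * t) ⊆ ccyl T z (2 * t + τ) := fun y hy =>
    (show ‖T.starProjection (y - z)‖ ≤ 2 * t from hy).trans (by linarith)
  have hbd : ∀ᵐ y ∂ν, |‖P y (grad φ y)‖ * √(gsq U (P y) y) + φ y * ‖lap U (P y) y‖| ≤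
      (ccyl T z (2 * t)).indicator g y := by
    filter_upwards [hC.proj, hf0, hh, e1] with y hy hfy hhy he1y
    obtain ⟨S, hS, hP⟩ := hy
    rw [abs_of_nonneg (by have := hφ0 y; positivity)]
    have hχd : DifferentiableAt ℝ χ y := hχ2.differentiable (by norm_num) y
    have hηd : DifferentiableAt ℝ η y := hη.smooth.differentiable (by norm_num) y
    have hgr : grad φ y = χ y • grad η y + η y • grad χ y := by
      refine ext_inner_right ℝ fun v => ?_
      rw [inner_grad, inner_add_left, inner_smul_left, inner_smul_left, inner_grad, inner_grad]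
      have e : HasFDerivAt φ (χ y • fderiv ℝ η y + η y • fderiv ℝ χ y) y :=
        hχd.hasFDerivAt.mul hηd.hasFDerivAt
      rw [e.fderiv]
      simp
    by_cases hyC : y ∈ ccyl T z (2 * t)
    · rw [indicator_of_mem hyC]
      have hg0 : 0 ≤ g y := by simp only [hg]; positivity
      by_cases hη0 : η y = 0
      · have h1 : grad η y = 0 := by
          rw [← norm_eq_zero, norm_grad_eq, fderiv_eq_zero_of_zero hη.nonneg hη0, norm_zero]
        have h2 : grad φ y = 0 := by rw [hgr, h1, hη0]; simp
        have h3 : φ y = 0 := by simp only [hφ]; rw [hη0, mul_zero]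
        rw [h2, h3, map_zero, norm_zero, zero_mul, zero_mul, zero_add]
        exact hg0
      · have hHy := hhy (hsub hyC) hη0
        have hyC' : ‖T.starProjection (y - z)‖ ≤ 2 * t := hyC
        have hccyl : ccyl T y τ ⊆ ccyl T z (2 * t + τ) := ccyl_subset hyC
        have hGy : InG T G y τ := hG.move (by linarith)
        obtain ⟨u1, u2, -⟩ := U_bounds hC hA hR hτ hK hη hL hccyl hGy (hM y hyC) hHy hS
        rw [← hU, ← hκ] at u1
        rw [← hU, ← hΛ] at u2
        rw [← hP] at u1 u2
        have hft : tilt T (P y) + eC T ν P y τ = f y := rfl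
        rw [hft] at u1 u2
        have ht0 : 0 ≤ tilt T (P y) := by rw [hP]; exact tilt_nonneg S T
        have h4 : ‖P y (grad η y)‖ ≤ n1 * √(tilt T (P y)) := by
          have h5 := norm_sq_star_le_of_mem (S := S) (hη.grad_mem y)
          rw [← hP, norm_grad_eq] at h5
          have h6 := he1y (hsub hyC)
          refine abs_le_of_sq_le_sq' ?_ (by positivity) |>.2
          rw [mul_pow, Real.sq_sqrt ht0, mul_comm]
          exact h5.trans (by gcongr)
        have h7 : ‖P y (grad χ y)‖ ≤ A / (2 * t) := by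
          rw [hP]
          refine (norm_star_le S _).trans ?_
          rw [norm_grad_eq]
          exact hK.norm_fderiv_ker ht2 z y
        have h8 : ‖P y (grad φ y)‖ ≤ n1 * √(tilt T (P y)) + A / (2 * t) := by
          rw [hgr, map_add, map_smul, map_smul]
          refine (norm_add_le _ _).trans (add_le_add ?_ ?_)
          · rw [norm_smul, Real.norm_eq_abs]
            have := hK.abs_ker_le (2 * t)⁻¹ z y
            calc _ ≤ 1 * (n1 * √(tilt T (P y))) :=
                  mul_le_mul this h4 (norm_nonneg _) zero_le_one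
              _ = _ := one_mul _
          · rw [norm_smul, Real.norm_eq_abs]
            calc _ ≤ 1 * (A / (2 * t)) :=
                  mul_le_mul (hη.abs_le y) h7 (norm_nonneg _) zero_le_one
              _ = _ := one_mul _
        have h9 : √(gsq U (P y) y) ≤ √κ * √(f y) := by
          rw [← Real.sqrt_mul hκ0]
          exact Real.sqrt_le_sqrt u1
        have h10 : √(tilt T (P y)) * √(f y) ≤ f y := by
          have : √(tilt T (P y)) ≤ √(f y) := Real.sqrt_le_sqrt (by
            have := eC_nonneg hC y τ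
            simp only [hf]; linarith)
          calc _ ≤ √(f y) * √(f y) := by gcongr
            _ = f y := Real.mul_self_sqrt hfy
        have h11 : φ y ≤ 1 := by
          have a1 := hK.abs_ker_le (2 * t)⁻¹ z y
          have a2 := hη.abs_le y
          have : φ y ≤ |χ y| * |η y| := by rw [← abs_mul]; exact le_abs_self _
          exact this.trans (by nlinarith [abs_nonneg (χ y), abs_nonneg (η y)])
        have h12 : φ y * ‖lap U (P y) y‖ ≤ Λ * f y := by
          calc _ ≤ 1 * (Λ * f y) := mul_le_mul h11 u2 (norm_nonneg _) zero_le_one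
            _ = _ := one_mul _
        calc ‖P y (grad φ y)‖ * √(gsq U (P y) y) + φ y * ‖lap U (P y) y‖
            ≤ (n1 * √(tilt T (P y)) + A / (2 * t)) * (√κ * √(f y)) + Λ * f y := by
              refine add_le_add ?_ h12
              gcongr
          _ = A / (2 * t) * √κ * √(f y) + (n1 * √κ * (√(tilt T (P y)) * √(f y)) + Λ * f y) := by
              ring
          _ ≤ A / (2 * t) * √κ * √(f y) + (n1 * √κ * f y + Λ * f y) := by
              gcongr
          _ = g y := by simp only [hg]; ring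
    · rw [indicator_of_notMem hyC]
      have h1 := hK.ker_off ht2 hyC
      have h2 := (hK.fderiv_ker_off ht2 hyC).1
      have h3 : grad χ y = 0 := by
        rw [← norm_eq_zero, norm_grad_eq, h2, norm_zero]
      have h4 : grad φ y = 0 := by rw [hgr, h3, hχ, h1]; simp
      have h5 : φ y = 0 := by simp only [hφ]; rw [hχ, h1, zero_mul]
      rw [h4, h5, map_zero, norm_zero, zero_mul, zero_mul, zero_add]
  have h20 := abs_integral_le_set (measurableSet_ccyl T z (2 * t)) hbd hgi
  refine (le_abs_self _).trans (h20.trans ?_)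
  obtain ⟨-, h21⟩ := eC_double_le hC (z := z) (s := 2 * t) hM0 hM2
  have h22 : ∫ y in ccyl T z (2 * t), f y ∂ν ≤ (1 + M) * eC T ν P z (2 * t + τ) := by
    rw [integral_add (integrable_tilt hC).integrableOn (integrable_eC hC τ).integrableOn]
    have h23 : ∫ y in ccyl T z (2 * t), tilt T (P y) ∂ν ≤ eC T ν P z (2 * t + τ) := by
      unfold eC
      refine setIntegral_mono_set (integrable_tilt hC).integrableOn
        (ae_restrict_of_ae ?_) (HasSubset.Subset.eventuallyLE hsub)
      filter_upwards [ae_tilt hC] with y hy using hy.1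
    linarith
  have h24 : ∫ y in ccyl T z (2 * t), √(f y) ∂ν ≤
      √(ν.real (ccyl T z (2 * t))) * √((1 + M) * eC T ν P z (2 * t + τ)) := by
    refine (integral_sqrt_le hfi.integrableOn (ae_restrict_of_ae hf0)).trans ?_
    gcongr
  have h25 : ∫ y in ccyl T z (2 * t), g y ∂ν =
      A / (2 * t) * √κ * (∫ y in ccyl T z (2 * t), √(f y) ∂ν) +
        (n1 * √κ + Λ) * ∫ y in ccyl T z (2 * t), f y ∂ν := by
    rw [← integral_const_mul, ← integral_const_mul,
      ← integral_add (hfs.integrableOn.const_mul _) (hfi.integrableOn.const_mul _)]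
  rw [h25]
  gcongr

end

end Vale.Agent.P214.CLS
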