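import Vale.Agent.P214.SL.Main
import Vale.Agent.P214.FV.Trunc

/-!
# P214, block CLS, part 1: integrals `x ↦ ∫ Φ(z) k(s (z - x)) dν(z)` and their derivatives
-/

open Set Filter Topology MeasureTheory Metric
open scoped RealInnerProductSpace

set_option linter.all false

namespace Vale.Agent.P214.CLS

open Vale.Agent.P214.FV

variable {E : Type*} [NormedAddCommGroup E] [InnerProductSpace ℝ E] [FiniteDimensional ℝ E]
  [MeasurableSpace E] [BorelSpace E]
variable {W : Type*} [NormedAddCommGroup W] [NormedSpace ℝ W]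
variable {ν : Measure E} [IsFiniteMeasure ν]

/-- `x ↦ ∫ Φ(z) k(s (z - x)) dν(z)` -/
noncomputable def kint (ν : Measure E) (k : E → W) (s : ℝ) (Φ : E → ℝ) (x : E) : W :=
  ∫ z, Φ z • k (s • (z - x)) ∂ν

section
variable {k : E → W} {A b : ℝ} {Φ : E → ℝ}

lemma aesm_kint (hk : Continuous k) (hΦ : AEStronglyMeasurable Φ ν) (s : ℝ) (x : E) :
    AEStronglyMeasurable (fun z => Φ z • k (s • (z - x))) ν := by
  have h2 : Continuous fun z : E => k (s • (z - x)) := by fun_prop
  exact hΦ.smul h2.aestronglyMeasurable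

lemma integrable_kint (hk : Continuous k) (hΦ : AEStronglyMeasurable Φ ν)
    (hA : ∀ u, ‖k u‖ ≤ A) (hb : ∀ᵐ z ∂ν, ‖Φ z‖ ≤ b) (s : ℝ) (x : E) :
    Integrable (fun z => Φ z • k (s • (z - x))) ν := by
  have hA0 : 0 ≤ A := (norm_nonneg _).trans (hA 0)
  refine Integrable.mono' (integrable_const (b * A)) (aesm_kint hk hΦ s x) ?_
  filter_upwards [hb] with z hz
  rw [norm_smul]
  exact mul_le_mul hz (hA _) (norm_nonneg _) ((norm_nonneg _).trans hz)

lemma hasFDerivAt_shift (hk : ContDiff ℝ 1 k) (s : ℝ) (z x : E) :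
    HasFDerivAt (fun x => k (s • (z - x))) ((-s) • fderiv ℝ k (s • (z - x))) x := by
  have h1 : HasFDerivAt (fun x : E => s • (z - x)) (s • (-ContinuousLinearMap.id ℝ E)) x :=
    ((hasFDerivAt_id x).const_sub z).const_smul s
  have h2 := ((hk.differentiable (by norm_num) (s • (z - x))).hasFDerivAt).comp x h1
  refine h2.congr_fderiv ?_
  ext v
  simp

/-- the derivative of a kernel integral -/
lemma hasFDerivAt_kint (hk : ContDiff ℝ 1 k) (hΦ : AEStronglyMeasurable Φ ν)
    (hA : ∀ u, ‖k u‖ ≤ A) (hA1 : ∀ u, ‖fderiv ℝ k u‖ ≤ A) (hb : ∀ᵐ z ∂ν, ‖Φ z‖ ≤ b) (s : ℝ)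
    (x : E) :
    HasFDerivAt (kint ν k s Φ) ((-s) • kint ν (fderiv ℝ k) s Φ x) x := by
  have hA0 : 0 ≤ A := (norm_nonneg _).trans (hA 0)
  have hk1 : Continuous (fderiv ℝ k) := hk.continuous_fderiv (by norm_num)
  have key := hasFDerivAt_integral_of_dominated_of_fderiv_le (𝕜 := ℝ) (μ := ν) (s := univ)
    (x₀ := x) (F := fun x z => Φ z • k (s • (z - x)))
    (F' := fun x z => Φ z • ((-s) • fderiv ℝ k (s • (z - x))))
    (bound := fun _ => b * (|s| * A)) univ_mem
    (Eventually.of_forall fun x => aesm_kint hk.continuous hΦ s x)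
    (integrable_kint hk.continuous hΦ hA hb s x)
    (by
      have h2 : Continuous fun z : E => (-s) • fderiv ℝ k (s • (z - x)) := by fun_prop
      exact hΦ.smul h2.aestronglyMeasurable)
    (by
      filter_upwards [hb] with z hz x' _
      rw [norm_smul, norm_smul, norm_neg, Real.norm_eq_abs s]
      have := hA1 (s • (z - x'))
      exact mul_le_mul hz (by gcongr) (by positivity) ((norm_nonneg _).trans hz))
    (integrable_const _)
    (Eventually.of_forall fun z x' _ => (hasFDerivAt_shift hk s z x').const_smul (Φ z))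
  refine key.congr_fderiv ?_
  unfold kint
  rw [← integral_smul]
  refine integral_congr_ae (Eventually.of_forall fun z => ?_)
  simp only
  rw [smul_comm]

/-- continuity of kernel integrals -/
lemma continuous_kint (hk : Continuous k) (hΦ : AEStronglyMeasurable Φ ν)
    (hA : ∀ u, ‖k u‖ ≤ A) (hb : ∀ᵐ z ∂ν, ‖Φ z‖ ≤ b) (s : ℝ) : Continuous (kint ν k s Φ) := by
  have hA0 : 0 ≤ A := (norm_nonneg _).trans (hA 0)
  refine continuous_of_dominated (bound := fun _ => b * A)
    (fun x => aesm_kint hk hΦ s x) (fun x => ?_) (integrable_const _)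
    (Eventually.of_forall fun z => by fun_prop)
  filter_upwards [hb] with z hz
  rw [norm_smul]
  exact mul_le_mul hz (hA _) (norm_nonneg _) ((norm_nonneg _).trans hz)

end

/-- bounds for the kernel and two derivatives -/
structure KB (K : E → ℝ) (A : ℝ) : Prop where
  smooth : ContDiff ℝ 2 K
  b0 : ∀ u, ‖K u‖ ≤ A
  b1 : ∀ u, ‖fderiv ℝ K u‖ ≤ A
  b2 : ∀ u, ‖fderiv ℝ (fderiv ℝ K) u‖ ≤ A

section
variable {K : E → ℝ} {A b : ℝ} {Φ Ψ : E → ℝ}

lemma fderiv_kint (hK : KB K A) (hΦ : AEStronglyMeasurable Φ ν)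
    (hb : ∀ᵐ z ∂ν, ‖Φ z‖ ≤ b) (s : ℝ) :
    fderiv ℝ (kint ν K s Φ) = fun x => (-s) • kint ν (fderiv ℝ K) s Φ x :=
  funext fun x => (hasFDerivAt_kint (hK.smooth.of_le (by norm_num)) hΦ hK.b0 hK.b1 hb s x).fderiv

lemma hasFDerivAt_fderiv_kint (hK : KB K A) (hΦ : AEStronglyMeasurable Φ ν)
    (hb : ∀ᵐ z ∂ν, ‖Φ z‖ ≤ b) (s : ℝ) (x : E) :
    HasFDerivAt (fderiv ℝ (kint ν K s Φ))
      ((s ^ 2) • kint ν (fderiv ℝ (fderiv ℝ K)) s Φ x) x := by
  rw [fderiv_kint hK hΦ hb s]
  have h1 := (hasFDerivAt_kint (hK.smooth.fderiv_right (m := 1) (by norm_num)) hΦ hK.b1 hK.b2 hb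
    s x).const_smul (-s)
  refine h1.congr_fderiv ?_
  rw [smul_smul]
  congr 1
  ring

lemma contDiff_kint (hK : KB K A) (hΦ : AEStronglyMeasurable Φ ν)
    (hb : ∀ᵐ z ∂ν, ‖Φ z‖ ≤ b) (s : ℝ) : ContDiff ℝ 2 (kint ν K s Φ) := by
  rw [show (2 : WithTop ℕ∞) = 1 + 1 by norm_num, contDiff_succ_iff_fderiv]
  refine ⟨fun x => (hasFDerivAt_kint (hK.smooth.of_le (by norm_num)) hΦ hK.b0 hK.b1 hb s
    x).differentiableAt, by simp, ?_⟩
  rw [contDiff_one_iff_fderiv]
  refine ⟨fun x => (hasFDerivAt_fderiv_kint hK hΦ hb s x).differentiableAt, ?_⟩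
  have h1 : fderiv ℝ (fderiv ℝ (kint ν K s Φ)) = fun x =>
      (s ^ 2) • kint ν (fderiv ℝ (fderiv ℝ K)) s Φ x :=
    funext fun x => (hasFDerivAt_fderiv_kint hK hΦ hb s x).fderiv
  rw [h1]
  have h2 : Continuous (kint ν (fderiv ℝ (fderiv ℝ K)) s Φ) :=
    continuous_kint ((hK.smooth.fderiv_right (m := 1) (by norm_num)).continuous_fderiv
      (by norm_num)) hΦ hK.b2 hb s
  exact Continuous.const_smul h2 (s ^ 2)

/-- the kernel centred at `x`, as a function of `z` -/
noncomputable def ker (K : E → ℝ) (s : ℝ) (x z : E) : ℝ := K (s • (z - x))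

omit [FiniteDimensional ℝ E] [MeasurableSpace E] [BorelSpace E] in
lemma hasFDerivAt_ker (hK : ContDiff ℝ 2 K) (s : ℝ) (x z : E) :
    HasFDerivAt (ker K s x) (s • fderiv ℝ K (s • (z - x))) z := by
  have h1 : HasFDerivAt (fun z : E => s • (z - x)) (s • ContinuousLinearMap.id ℝ E) z :=
    ((hasFDerivAt_id z).sub_const x).const_smul s
  have h2 := ((hK.differentiable (by norm_num) (s • (z - x))).hasFDerivAt).comp z h1
  refine h2.congr_fderiv ?_
  ext v
  simp

omit [FiniteDimensional ℝ E] [MeasurableSpace E] [BorelSpace E] in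
lemma contDiff_ker (hK : ContDiff ℝ 2 K) (s : ℝ) (x : E) : ContDiff ℝ 2 (ker K s x) := by
  have h1 : ContDiff ℝ 2 (fun z : E => s • (z - x)) :=
    contDiff_const.smul (contDiff_id.sub contDiff_const)
  exact hK.comp h1

omit [FiniteDimensional ℝ E] [MeasurableSpace E] [BorelSpace E] in
lemma hasFDerivAt_fderiv_ker (hK : ContDiff ℝ 2 K) (s : ℝ) (x z : E) :
    HasFDerivAt (fderiv ℝ (ker K s x)) ((s ^ 2) • fderiv ℝ (fderiv ℝ K) (s • (z - x))) z := by
  have h0 : fderiv ℝ (ker K s x) = fun z => s • fderiv ℝ K (s • (z - x)) :=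
    funext fun z => (hasFDerivAt_ker hK s x z).fderiv
  rw [h0]
  have h1 : HasFDerivAt (fun z : E => s • (z - x)) (s • ContinuousLinearMap.id ℝ E) z :=
    ((hasFDerivAt_id z).sub_const x).const_smul s
  have hK1 : ContDiff ℝ 1 (fderiv ℝ K) := hK.fderiv_right (by norm_num)
  have h2 := ((hK1.differentiable (by norm_num) (s • (z - x))).hasFDerivAt).comp z h1
  refine (h2.const_smul s).congr_fderiv ?_
  ext v w
  simp
  ring

/-- first derivative of `kint` through the derivative of the kernel in `z` -/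
lemma fderiv_kint_apply (hK : KB K A) (hΦ : AEStronglyMeasurable Φ ν)
    (hb : ∀ᵐ z ∂ν, ‖Φ z‖ ≤ b) (s : ℝ) (x u : E) :
    fderiv ℝ (kint ν K s Φ) x u = -∫ z, Φ z * fderiv ℝ (ker K s x) z u ∂ν := by
  have hint := integrable_kint (k := fderiv ℝ K)
    (hK.smooth.continuous_fderiv (by norm_num)) hΦ hK.b1 hb s x
  rw [fderiv_kint hK hΦ hb s]
  simp only
  rw [ContinuousLinearMap.smul_apply, kint, ContinuousLinearMap.integral_apply hint, neg_smul,
    ← integral_smul]
  congr 1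
  refine integral_congr_ae (Eventually.of_forall fun z => ?_)
  simp only
  rw [(hasFDerivAt_ker hK.smooth s x z).fderiv]
  simp
  ring

/-- second derivative of `kint` through the second derivative of the kernel in `z` -/
lemma fderiv2_kint_apply (hK : KB K A) (hΦ : AEStronglyMeasurable Φ ν)
    (hb : ∀ᵐ z ∂ν, ‖Φ z‖ ≤ b) (s : ℝ) (x u v : E) :
    fderiv ℝ (fderiv ℝ (kint ν K s Φ)) x u v =
      ∫ z, Φ z * fderiv ℝ (fderiv ℝ (ker K s x)) z u v ∂ν := by
  have hint := integrable_kint (k := fderiv ℝ (fderiv ℝ K))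
    ((hK.smooth.fderiv_right (m := 1) (by norm_num)).continuous_fderiv (by norm_num)) hΦ hK.b2 hb
    s x
  have hint2 : Integrable (fun z => (Φ z • fderiv ℝ (fderiv ℝ K) (s • (z - x))) u) ν :=
    hint.apply_continuousLinearMap u
  rw [(hasFDerivAt_fderiv_kint hK hΦ hb s x).fderiv]
  rw [ContinuousLinearMap.smul_apply, ContinuousLinearMap.smul_apply, kint,
    ContinuousLinearMap.integral_apply hint, ContinuousLinearMap.integral_apply hint2,
    ← integral_smul]
  refine integral_congr_ae (Eventually.of_forall fun z => ?_)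
  simp only
  rw [(hasFDerivAt_fderiv_ker hK.smooth s x z).fderiv]
  simp
  ring

end

end Vale.Agent.P214.CLS
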