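import Vale.Agent.P214.CLS.Fub

/-!
# P214, block CLS, part 7: the slab estimate for the field `U`
-/

open Set Filter Topology MeasureTheory Metric
open scoped RealInnerProductSpace ENNReal

set_option linter.all false

namespace Vale.Agent.P214.CLS

open Vale.Agent.P214.FV

variable {E : Type*} [NormedAddCommGroup E] [InnerProductSpace ℝ E] [FiniteDimensional ℝ E]
  [MeasurableSpace E] [BorelSpace E]
variable {m : ℕ} {T : Submodule ℝ E} {G : Set E} {h : ℝ} {ν : Measure E} {P : E → E →L[ℝ] E}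

/-- local bounds of the window over a base ball -/
structure LB (T : Submodule ℝ E) (c : E) (η : E → ℝ) (ν : Measure E) (z : E) (s : ℝ)
    (n1 n2 b0 b1 b2 H : ℝ) : Prop where
  p1 : 0 ≤ n1
  p2 : 0 ≤ n2
  p3 : 0 ≤ b0
  p4 : 0 ≤ b1
  p5 : 0 ≤ b2
  p6 : 0 ≤ H
  e1 : ∀ᵐ y ∂ν, y ∈ ccyl T z s → ‖fderiv ℝ η y‖ ≤ n1
  e2 : ∀ᵐ y ∂ν, y ∈ ccyl T z s → ‖fderiv ℝ (fderiv ℝ η) y‖ ≤ n2
  w0 : ∀ j, ∀ᵐ y ∂ν, y ∈ ccyl T z s → |wh T c η (stdOrthonormalBasis ℝ E j) y| ≤ b0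
  w1 : ∀ j, ∀ᵐ y ∂ν, y ∈ ccyl T z s → ‖fderiv ℝ (wh T c η (stdOrthonormalBasis ℝ E j)) y‖ ≤ b1
  w2 : ∀ j, ∀ᵐ y ∂ν, y ∈ ccyl T z s →
    ‖fderiv ℝ (fderiv ℝ (wh T c η (stdOrthonormalBasis ℝ E j))) y‖ ≤ b2
  hh : ∀ᵐ y ∂ν, y ∈ ccyl T z s → η y ≠ 0 → ‖hgt T c y‖ ≤ H

/-- the normalised scalar kernel integrals -/
noncomputable def NF (ν : Measure E) (K η : E → ℝ) (τ : ℝ) : E → ℝ := kint ν K τ⁻¹ η

noncomputable def WF (T : Submodule ℝ E) (c : E) (ν : Measure E) (K η : E → ℝ) (τ : ℝ)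
    (j : Fin (Module.finrank ℝ E)) : E → ℝ := kint ν K τ⁻¹ (wh T c η (stdOrthonormalBasis ℝ E j))

/-- the field `U` -/
noncomputable def Ufield (T : Submodule ℝ E) (c : E) (ν : Measure E) (K η : E → ℝ) (τ : ℝ) :
    E → E := UF T c (NF ν K η τ) (WF T c ν K η τ)

section
variable {c : E} {R A τ : ℝ} {K η : E → ℝ}

lemma kint_base {Φ : E → ℝ} (hK : BK T A K) (s : ℝ) (y : E) :
    kint ν K s Φ (T.starProjection y) = kint ν K s Φ y := by
  unfold kint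
  refine integral_congr_ae (Eventually.of_forall fun z => ?_)
  have := hK.base_ker' s y z
  simp only [ker] at this
  simp only [this]

lemma contDiff_NF [IsFiniteMeasure ν] (hA : 1 ≤ A) (hK : BK T A K) (hη : VW T c R A η) :
    ContDiff ℝ 2 (NF ν K η τ) :=
  contDiff_kint (hK.kb hA) hη.smooth.continuous.aestronglyMeasurable
    (Eventually.of_forall fun z => hη.abs_le z) _

lemma contDiff_WF [IsFiniteMeasure ν] (hA : 1 ≤ A) (hR : 0 < R) (hK : BK T A K)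
    (hη : VW T c R A η) (j : Fin (Module.finrank ℝ E)) :
    ContDiff ℝ 2 (WF T c ν K η τ j) :=
  contDiff_kint (hK.kb hA) (hη.contDiff_wh _).continuous.aestronglyMeasurable
    (Eventually.of_forall fun z => hη.abs_wh_le hR _ z) _

lemma contDiff_Ufield [IsFiniteMeasure ν] (hA : 1 ≤ A) (hR : 0 < R) (hK : BK T A K)
    (hη : VW T c R A η) : ContDiff ℝ 2 (Ufield T c ν K η τ) :=
  contDiff_UF (contDiff_NF hA hK hη) (contDiff_WF hA hR hK hη)

/-- constants -/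
noncomputable def k0 (m : ℕ) (A τ M n1 : ℝ) : ℝ := A / τ * √(m * M) + n1 * √M

noncomputable def k1 (m : ℕ) (A τ M b0 b1 : ℝ) : ℝ := b0 * (A / τ) * √(m * M) + b1 * √M

lemma ccyl_subset {x z : E} {r s : ℝ} (hx : x ∈ ccyl T z s) : ccyl T x r ⊆ ccyl T z (s + r) := by
  intro y hy
  have h1 : ‖T.starProjection (x - z)‖ ≤ s := hx
  have h2 : ‖T.starProjection (y - x)‖ ≤ r := hy
  show ‖T.starProjection (y - z)‖ ≤ s + r
  calc ‖T.starProjection (y - z)‖ = ‖T.starProjection (x - z) + T.starProjection (y - x)‖ := by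
        rw [← map_add]; congr 2; abel
    _ ≤ s + r := (norm_add_le _ _).trans (add_le_add h1 h2)

lemma eC_le (hC : CylStat m T G h ν P) {x : E} {r M : ℝ} (hM : ν.real (ccyl T x r) ≤ M) :
    eC T ν P x r ≤ m * M := by
  have hfin := hC.fin
  unfold eC
  calc _ ≤ ∫ y in ccyl T x r, (m : ℝ) ∂ν := by
        refine integral_mono_ae (integrable_tilt hC).integrableOn (integrable_const _)
          (ae_restrict_of_ae ?_)
        filter_upwards [ae_tilt hC] with y hy using hy.2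
    _ = ν.real (ccyl T x r) * m := by rw [setIntegral_const, smul_eq_mul]
    _ ≤ m * M := by rw [mul_comm]; gcongr

/-- a quantity `e ≤ m M` is bounded by `√(m M) √e` -/
lemma le_sqrt_mul {e B : ℝ} (h0 : 0 ≤ e) (h : e ≤ B) : e ≤ √B * √e := by
  have h1 : √e ≤ √B := Real.sqrt_le_sqrt h
  calc e = √e * √e := (Real.mul_self_sqrt h0).symm
    _ ≤ √B * √e := by gcongr

/-- bounds of the kernel integrals at a point -/
lemma NW_bounds (hC : CylStat m T G h ν P) (hA : 1 ≤ A) (hR : 0 < R) (hτ : 0 < τ)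
    (hK : BK T A K) (hη : VW T c R A η) {z : E} {s n1 n2 b0 b1 b2 H M : ℝ}
    (hL : LB T c η ν z s n1 n2 b0 b1 b2 H) {y : E} (hy : ccyl T y τ ⊆ ccyl T z s)
    (hG : InG T G y τ) (hM : ν.real (ccyl T y τ) ≤ M) :
    ‖fderiv ℝ (NF ν K η τ) y‖ ≤ k0 m A τ M n1 * √(eC T ν P y τ) ∧
    |SL.lapT T (NF ν K η τ) y| ≤ (A / τ ^ 2 + n2) * eC T ν P y τ ∧
    ‖fderiv ℝ (fderiv ℝ (NF ν K η τ)) y‖ ≤ A / τ ^ 2 * M ∧
    |NF ν K η τ y| ≤ M ∧
    (∀ j, ‖fderiv ℝ (WF T c ν K η τ j) y‖ ≤ k1 m A τ M b0 b1 * √(eC T ν P y τ)) ∧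
    (∀ j, |SL.lapT T (WF T c ν K η τ j) y| ≤ (b0 * (A / τ ^ 2) + b2) * eC T ν P y τ) ∧
    (∀ j, ‖fderiv ℝ (fderiv ℝ (WF T c ν K η τ j)) y‖ ≤ b0 * (A / τ ^ 2) * M) := by
  have hfin := hC.fin
  have hA0 : 0 < A := by linarith
  obtain ⟨q1, q2, q3, q4, q5, q6, e1, e2, w0, w1, w2, hh⟩ := hL
  have hM0 : 0 ≤ M := measureReal_nonneg.trans hM
  have hmono : ∀ {p : E → Prop}, (∀ᵐ x ∂ν, x ∈ ccyl T z s → p x) →
      ∀ᵐ x ∂ν, x ∈ ccyl T y τ → p x := fun h => by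
    filter_upwards [h] with x hx h1 using hx (hy h1)
  obtain ⟨a1, a2, a3, a4⟩ := kint_est hC hA hK hτ hG hη.smooth hη.vert (B := 1) (b0 := 1)
    (Eventually.of_forall fun z => hη.abs_le z) zero_le_one q1 q2
    (Eventually.of_forall fun z _ => hη.abs_le z) (hmono e1) (hmono e2)
  have c1 := fun j => kint_est hC hA hK hτ hG (hη.contDiff_wh (stdOrthonormalBasis ℝ E j))
    (hη.wh_vert (stdOrthonormalBasis ℝ E j))
    (Eventually.of_forall fun z => hη.abs_wh_le hR (stdOrthonormalBasis ℝ E j) z) q3 q4 q5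
    (hmono (w0 j)) (hmono (w1 j)) (hmono (w2 j))
  set e := eC T ν P y τ with he
  have he0 : 0 ≤ e := eC_nonneg hC y τ
  have heM : e ≤ m * M := eC_le hC hM
  have hs : sC T ν P y τ ≤ √M * √e := (sC_le hC y τ).trans (by gcongr)
  have hse : e ≤ √(m * M) * √e := le_sqrt_mul he0 heM
  refine ⟨?_, ?_, ?_, ?_, fun j => ?_, fun j => ?_, fun j => ?_⟩
  · refine a1.trans ?_
    calc 1 * (A / τ) * e + n1 * sC T ν P y τ ≤ 1 * (A / τ) * (√(m * M) * √e) +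
          n1 * (√M * √e) := by gcongr
      _ = _ := by unfold k0; ring
  · refine a2.trans (le_of_eq ?_)
    ring
  · refine a3.trans ?_
    rw [one_mul]
    gcongr
  · refine a4.trans ?_
    rw [one_mul]
    exact hM
  · refine (c1 j).1.trans ?_
    calc b0 * (A / τ) * e + b1 * sC T ν P y τ ≤ b0 * (A / τ) * (√(m * M) * √e) +
          b1 * (√M * √e) := by gcongr
      _ = _ := by unfold k1; ring
  · exact (c1 j).2.1
  · refine (c1 j).2.2.1.trans ?_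
    gcongr

/-- constants of the slab estimate -/
noncomputable def kap (E : Type*) [NormedAddCommGroup E] [InnerProductSpace ℝ E]
    (m : ℕ) (A τ M n1 b0 b1 H : ℝ) : ℝ :=
  k0 m A τ M n1 * H + (Module.finrank ℝ E : ℝ) * k1 m A τ M b0 b1

noncomputable def kap' (E : Type*) [NormedAddCommGroup E] [InnerProductSpace ℝ E]
    (m : ℕ) (A τ M n1 b0 b1 H : ℝ) : ℝ :=
  2 * M ^ 2 + 2 * m * kap E m A τ M n1 b0 b1 H ^ 2

noncomputable def Lam (E : Type*) [NormedAddCommGroup E] [InnerProductSpace ℝ E]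
    (m : ℕ) (A τ M n1 n2 b0 b2 H : ℝ) : ℝ :=
  (A / τ ^ 2 + n2) * H + A / τ ^ 2 * M * H + k0 m A τ M n1 * √m +
    (Module.finrank ℝ E : ℝ) * (b0 * (A / τ ^ 2) + b2) +
    (Module.finrank ℝ E : ℝ) * (b0 * (A / τ ^ 2) * M)

lemma five_le {a1 a2 a3 a4 a5 t e : ℝ} (h1 : 0 ≤ a1) (h2 : 0 ≤ a2) (h4 : 0 ≤ a4) (h5 : 0 ≤ a5)
    (ht : 0 ≤ t) (he : 0 ≤ e) :
    a1 * e + a2 * t + a3 * (t + e) + (a4 * e + a5 * t) ≤ (a1 + a2 + a3 + a4 + a5) * (t + e) := by
  have := mul_nonneg h1 ht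
  have := mul_nonneg h2 he
  have := mul_nonneg h4 ht
  have := mul_nonneg h5 he
  linarith

lemma two_le {M t e a : ℝ} (ha : 0 ≤ a) (ht : 0 ≤ t) (he : 0 ≤ e) :
    2 * M ^ 2 * t + a * e ≤ (2 * M ^ 2 + a) * (t + e) := by
  have := mul_nonneg ha ht
  have := mul_nonneg (sq_nonneg M) he
  linarith

/-- pointwise bounds of `gsq` and `lap` of the field -/
lemma U_bounds (hC : CylStat m T G h ν P) (hA : 1 ≤ A) (hR : 0 < R) (hτ : 0 < τ)
    (hK : BK T A K) (hη : VW T c R A η) {z : E} {s n1 n2 b0 b1 b2 H M : ℝ}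
    (hL : LB T c η ν z s n1 n2 b0 b1 b2 H) {y : E} (hy : ccyl T y τ ⊆ ccyl T z s)
    (hG : InG T G y τ) (hM : ν.real (ccyl T y τ) ≤ M) (hH : ‖hgt T c y‖ ≤ H)
    {S : Submodule ℝ E} (hS : Module.finrank ℝ S = m) :
    gsq (Ufield T c ν K η τ) S.starProjection y ≤
      kap' E m A τ M n1 b0 b1 H * (tilt T S.starProjection + eC T ν P y τ) ∧
    ‖lap (Ufield T c ν K η τ) S.starProjection y‖ ≤
      Lam E m A τ M n1 n2 b0 b2 H * (tilt T S.starProjection + eC T ν P y τ) ∧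
    NF ν K η τ y ^ 2 * tilt T S.starProjection ≤
      2 * gsq (Ufield T c ν K η τ) S.starProjection y +
        2 * m * kap E m A τ M n1 b0 b1 H ^ 2 * eC T ν P y τ := by
  have hfin := hC.fin
  have hA0 : 0 < A := by linarith
  obtain ⟨a1, a2, a3, a4, a5, a6, a7⟩ := NW_bounds hC hA hR hτ hK hη hL hy hG hM
  obtain ⟨q1, q2, q3, q4, q5, q6, e1, e2, w0, w1, w2, hh⟩ := hL
  have hM0 : 0 ≤ M := measureReal_nonneg.trans hM
  have hN := contDiff_NF (ν := ν) (τ := τ) hA hK hη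
  have hW := contDiff_WF (ν := ν) (τ := τ) hA hR hK hη
  set e := eC T ν P y τ with he
  have he0 : 0 ≤ e := eC_nonneg hC y τ
  set t := tilt T S.starProjection with ht
  have ht0 : 0 ≤ t := tilt_nonneg S T
  set d : ℝ := (Module.finrank ℝ E : ℝ) with hd
  have hd0 : 0 ≤ d := Nat.cast_nonneg _
  have hm0 : (0 : ℝ) ≤ m := Nat.cast_nonneg _
  have hk0 : 0 ≤ k0 m A τ M n1 := by unfold k0; positivity
  have hk1 : 0 ≤ k1 m A τ M b0 b1 := by unfold k1; positivity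
  have hkap : k0 m A τ M n1 * √e * ‖hgt T c y‖ + d * (k1 m A τ M b0 b1 * √e) ≤
      kap E m A τ M n1 b0 b1 H * √e := by
    unfold kap
    rw [← hd]
    calc _ ≤ k0 m A τ M n1 * √e * H + d * (k1 m A τ M b0 b1 * √e) := by gcongr
      _ = _ := by ring
  have hkapn : 0 ≤ kap E m A τ M n1 b0 b1 H := by unfold kap; positivity
  have hsq : (k0 m A τ M n1 * √e * ‖hgt T c y‖ + d * (k1 m A τ M b0 b1 * √e)) ^ 2 ≤
      kap E m A τ M n1 b0 b1 H ^ 2 * e := by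
    calc _ ≤ (kap E m A τ M n1 b0 b1 H * √e) ^ 2 := by gcongr
      _ = _ := by rw [mul_pow, Real.sq_sqrt he0]
  refine ⟨?_, ?_, ?_⟩
  · have h1 := gsq_UF_le (T := T) (c := c) (S := S) hN hW a1 a5
    refine h1.trans ?_
    rw [hS, ← ht]
    have h2 : NF ν K η τ y ^ 2 ≤ M ^ 2 := by
      rw [← sq_abs]; gcongr
    unfold kap'
    calc _ ≤ 2 * M ^ 2 * t + 2 * m * (kap E m A τ M n1 b0 b1 H ^ 2 * e) := by gcongr
      _ = 2 * M ^ 2 * t + 2 * m * kap E m A τ M n1 b0 b1 H ^ 2 * e := by ring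
      _ ≤ _ := two_le (by positivity) ht0 he0
  · have h1 := norm_lap_UF_le (T := T) (c := c) (S := S) (by rw [hS, hC.dimT]) hN hW
      (kint_base hK _) (fun j => kint_base hK _) a1 a2 a3 a6 a7
    refine h1.trans ?_
    rw [hS, ← ht, ← hd]
    have h3 : 2 * (√t * √e) ≤ t + e := by
      nlinarith [sq_nonneg (√t - √e), Real.sq_sqrt ht0, Real.sq_sqrt he0]
    have h4 : 2 * (k0 m A τ M n1 * √e) * (√m * √t) ≤ k0 m A τ M n1 * √m * (t + e) := by
      calc _ = k0 m A τ M n1 * √m * (2 * (√t * √e)) := by ring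
        _ ≤ _ := by gcongr
    have h5 : ((A / τ ^ 2 + n2) * e + A / τ ^ 2 * M * t) * ‖hgt T c y‖ ≤
        ((A / τ ^ 2 + n2) * e + A / τ ^ 2 * M * t) * H := by gcongr
    unfold Lam
    rw [← hd]
    have i1 : 0 ≤ (A / τ ^ 2 + n2) * H := by positivity
    have i2 : 0 ≤ A / τ ^ 2 * M * H := by positivity
    have i3 : 0 ≤ d * (b0 * (A / τ ^ 2) + b2) := by positivity
    have i4 : 0 ≤ d * (b0 * (A / τ ^ 2) * M) := by positivity
    refine le_trans ?_ (five_le i1 i2 i3 i4 ht0 he0)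
    refine (add_le_add (add_le_add h5 h4) le_rfl).trans (le_of_eq ?_)
    ring
  · have h1 := tilt_le_gsq_UF (T := T) (c := c) (S := S) hN hW a1 a5
    rw [hS] at h1
    refine h1.trans ?_
    have : 2 * (m : ℝ) * (k0 m A τ M n1 * √e * ‖hgt T c y‖ + d * (k1 m A τ M b0 b1 * √e)) ^ 2 ≤
        2 * m * (kap E m A τ M n1 b0 b1 H ^ 2 * e) := by gcongr
    have h2 : gsq (UF T c (NF ν K η τ) (WF T c ν K η τ)) S.starProjection y =
      gsq (Ufield T c ν K η τ) S.starProjection y := rfl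
    rw [h2]
    linarith

end

end Vale.Agent.P214.CLS
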