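import Vale.Agent.P214.CLS.Param

/-!
# P214, block CLS, part 2: first and second order estimates for `∫ Φ Dψ`, `∫ Φ Δψ`
(`ψ` a function of the base point, `Φ` a function of the height).
-/

open Set Filter Topology MeasureTheory Metric
open scoped RealInnerProductSpace

set_option linter.all false

namespace Vale.Agent.P214.CLS

open Vale.Agent.P214.FV

variable {E : Type*} [NormedAddCommGroup E] [InnerProductSpace ℝ E] [FiniteDimensional ℝ E]

/-- the two tilts agree on projections -/
lemma sl_tilt_eq (T S : Submodule ℝ E) : SL.tilt T S.starProjection = tilt T S.starProjection := by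
  rw [← hs_co_comp]
  rfl

/-- the defect operator is bounded by the tilt -/
lemma norm_defect_le {S T : Submodule ℝ E} (h : Module.finrank ℝ S = Module.finrank ℝ T) (u : E) :
    ‖defect T S.starProjection u‖ ≤ tilt T S.starProjection * ‖u‖ := by
  set t := tilt T S.starProjection with ht
  have ht0 : 0 ≤ t := tilt_nonneg S T
  have key : ∀ v, ‖co S (T.starProjection v)‖ ≤ √t * ‖v‖ := by
    intro v
    have h1 := inner_defect_le S T h v
    rw [inner_defect] at h1
    have h2 : ‖T.starProjection v‖ ≤ ‖v‖ := norm_star_le T v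
    refine abs_le_of_sq_le_sq' ?_ (by positivity) |>.2
    rw [mul_pow, Real.sq_sqrt ht0]
    exact h1.trans (by gcongr)
  set w := co S (T.starProjection u) with hw
  have hd : defect T S.starProjection u = T.starProjection w := by
    rw [hw, defect, ContinuousLinearMap.sub_apply, co_apply, map_sub, star_self]
    rfl
  have h3 : ‖T.starProjection w‖ ^ 2 ≤ (√t * ‖T.starProjection w‖) * ‖w‖ := by
    have h4 : ‖T.starProjection w‖ ^ 2 = ⟪co S (T.starProjection w), w⟫ := by
      rw [inner_co, hw, co_self, ← hw, ← real_inner_self_eq_norm_sq, inner_star, star_self,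
        real_inner_comm, inner_star]
    have h5 : ‖co S (T.starProjection w)‖ ≤ √t * ‖T.starProjection w‖ := by
      have := key (T.starProjection w)
      rwa [star_self] at this
    rw [h4]
    exact (real_inner_le_norm _ _).trans (by gcongr)
  have h6 : ‖T.starProjection w‖ ≤ √t * ‖w‖ := by
    by_cases h0 : ‖T.starProjection w‖ = 0
    · rw [h0]; positivity
    · have h0' : 0 < ‖T.starProjection w‖ := lt_of_le_of_ne (norm_nonneg _) (Ne.symm h0)
      nlinarith
  rw [hd]
  calc ‖T.starProjection w‖ ≤ √t * ‖w‖ := h6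
    _ ≤ √t * (√t * ‖u‖) := by gcongr; exact key u
    _ = t * ‖u‖ := by rw [← mul_assoc, Real.mul_self_sqrt ht0]

/-- vertical functions: hessian along a plane is bounded by the tilt -/
lemma abs_hess_vert_le {T S : Submodule ℝ E} {Φ : E → ℝ} (hΦ : ContDiff ℝ 2 Φ)
    (hv : ∀ y, Φ (Tᗮ.starProjection y) = Φ y) (y : E) :
    |hess Φ S.starProjection y| ≤ ‖fderiv ℝ (fderiv ℝ Φ) y‖ * tilt T S.starProjection := by
  rw [SL.hess_eq hΦ, SL.sum_proj, ← hs_co_comp, hs, Finset.mul_sum]
  refine (Finset.abs_sum_le_sum_abs _ _).trans (Finset.sum_le_sum fun k _ => ?_)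
  rw [← SL.fderiv2_base (T := Tᗮ) hv hΦ]
  rw [← Real.norm_eq_abs]
  refine (ContinuousLinearMap.le_opNorm₂ _ _ _).trans (le_of_eq ?_)
  rw [ContinuousLinearMap.comp_apply, co_eq]
  ring

/-- base functions: hessian along a plane against the base Laplacian -/
lemma abs_hess_base_sub_le {T S : Submodule ℝ E} (h : Module.finrank ℝ S = Module.finrank ℝ T)
    {ψ : E → ℝ} (hψ : ContDiff ℝ 2 ψ)
    (hv : ∀ y, ψ (T.starProjection y) = ψ y) (y : E) :
    |hess ψ S.starProjection y - SL.lapT T ψ y| ≤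
      ‖fderiv ℝ (fderiv ℝ ψ) y‖ * tilt T S.starProjection := by
  rw [SL.hess_eq hψ, SL.sum_proj, ← sl_tilt_eq, ← Real.norm_eq_abs]
  exact SL.norm_lapP_sub_le h hv hψ y

variable [MeasurableSpace E] [BorelSpace E]
variable {m : ℕ} {T : Submodule ℝ E} {G : Set E} {h : ℝ} {ν : Measure E} {P : E → E →L[ℝ] E}

/-- bound of the tilt -/
lemma ae_tilt (hC : CylStat m T G h ν P) : ∀ᵐ y ∂ν, 0 ≤ tilt T (P y) ∧ tilt T (P y) ≤ m := by
  filter_upwards [hC.proj] with y hy
  obtain ⟨S, hS, hP⟩ := hy
  rw [hP]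
  exact ⟨tilt_nonneg S T, by rw [← hS]; exact FV.tilt_le S T⟩

lemma aesm_tilt (hC : CylStat m T G h ν P) : AEStronglyMeasurable (fun y => tilt T (P y)) ν := by
  have h1 : Continuous fun B : E →L[ℝ] E => tilt T B := by
    have : (fun B : E →L[ℝ] E => tilt T B) = fun B => tr ((co T).comp B) := rfl
    rw [this]
    have h2 : Continuous fun B : E →L[ℝ] E => (co T).comp B := by fun_prop
    exact continuous_tr.comp h2
  exact h1.comp_aestronglyMeasurable hC.meas

lemma integrable_tilt (hC : CylStat m T G h ν P) : Integrable (fun y => tilt T (P y)) ν := by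
  have := hC.fin
  refine Integrable.mono' (integrable_const (m : ℝ)) (aesm_tilt hC) ?_
  filter_upwards [ae_tilt hC] with y hy
  rw [Real.norm_eq_abs, abs_of_nonneg hy.1]
  exact hy.2

lemma integrable_sqrt_tilt (hC : CylStat m T G h ν P) :
    Integrable (fun y => √(tilt T (P y))) ν := by
  have := hC.fin
  refine Integrable.mono' (integrable_const (√m : ℝ))
    (Real.continuous_sqrt.comp_aestronglyMeasurable (aesm_tilt hC)) ?_
  filter_upwards [ae_tilt hC] with y hy
  rw [Real.norm_eq_abs, abs_of_nonneg (Real.sqrt_nonneg _)]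
  exact Real.sqrt_le_sqrt hy.2

/-- a function vanishing off `A` with a bound there -/
lemma abs_integral_le_set {f g : E → ℝ} {A : Set E} (hA : MeasurableSet A)
    (hf : ∀ᵐ y ∂ν, |f y| ≤ A.indicator g y) (hg : Integrable g ν) :
    |∫ y, f y ∂ν| ≤ ∫ y in A, g y ∂ν := by
  rw [← integral_indicator hA]
  by_cases hfi : Integrable f ν
  · exact (abs_integral_le_integral_abs).trans
      (integral_mono_ae hfi.abs (hg.indicator hA) hf)
  · rw [integral_undef hfi, abs_zero]
    refine integral_nonneg_of_ae ?_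
    filter_upwards [hf] with y hy
    exact (abs_nonneg _).trans hy

/-- **first order estimate** -/
theorem first_le (hC : CylStat m T G h ν P) {ψ Φ : E → ℝ} (hψ : ContDiff ℝ 1 ψ)
    (hψT : ∀ y, ψ (T.starProjection y) = ψ y) (hb : BaseCpt T G ψ) (hΦ : ContDiff ℝ 1 Φ)
    (hΦv : ∀ y, Φ (Tᗮ.starProjection y) = Φ y) {A : Set E} (hA : MeasurableSet A)
    (h0 : ∀ y, y ∉ A → ψ y = 0 ∧ fderiv ℝ ψ y = 0) {a0 a1 b0 b1 : ℝ}
    (hb00 : 0 ≤ b0) (hb10 : 0 ≤ b1)
    (ha0 : ∀ y, |ψ y| ≤ a0) (ha1 : ∀ y, ‖fderiv ℝ ψ y‖ ≤ a1)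
    (hb0 : ∀ᵐ y ∂ν, y ∈ A → |Φ y| ≤ b0)
    (hb1 : ∀ᵐ y ∂ν, y ∈ A → ‖fderiv ℝ Φ y‖ ≤ b1) (u : E) :
    |∫ y, Φ y * fderiv ℝ ψ y u ∂ν| ≤
      ‖u‖ * (b0 * a1 * (∫ y in A, tilt T (P y) ∂ν) + b1 * a0 * ∫ y in A, √(tilt T (P y)) ∂ν) := by
  have hfin := hC.fin
  have ha00 : 0 ≤ a0 := (abs_nonneg _).trans (ha0 0)
  have ha10 : 0 ≤ a1 := (norm_nonneg _).trans (ha1 0)
  have hψd : Differentiable ℝ ψ := hψ.differentiable (by norm_num)
  have hΦd : Differentiable ℝ Φ := hΦ.differentiable (by norm_num)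
  -- stationarity
  have h1 := hC.prod' (φ := fun y => ψ y * Φ y) (W := fun _ => T.starProjection u)
    (hψ.mul hΦ) contDiff_const (hb.comp_zero fun y hy => by simp [hy])
  have h2 : ∀ y, fderiv ℝ (fun _ : E => T.starProjection u) y = 0 := fun y => by simp
  simp only [h2, ContinuousLinearMap.zero_comp, tr_zero, mul_zero, integral_zero] at h1
  have h3 : ∀ y v, fderiv ℝ (fun y => ψ y * Φ y) y v = ψ y * fderiv ℝ Φ y v + Φ y * fderiv ℝ ψ y v := by
    intro y v
    have e : HasFDerivAt (fun y => ψ y * Φ y) (ψ y • fderiv ℝ Φ y + Φ y • fderiv ℝ ψ y) y :=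
      (hψd y).hasFDerivAt.mul (hΦd y).hasFDerivAt
    rw [e.fderiv]
    simp
  simp only [h3] at h1
  -- pointwise identity
  have h4 : (fun y => ψ y * fderiv ℝ Φ y (P y (T.starProjection u)) +
      Φ y * fderiv ℝ ψ y (P y (T.starProjection u))) =ᵐ[ν]
      fun y => (ψ y * fderiv ℝ Φ y (co T (P y (T.starProjection u))) -
        Φ y * fderiv ℝ ψ y (defect T (P y) u)) + Φ y * fderiv ℝ ψ y u := by
    refine Eventually.of_forall fun y => ?_
    simp only
    have e1 : fderiv ℝ Φ y (co T (P y (T.starProjection u))) =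
        fderiv ℝ Φ y (P y (T.starProjection u)) := by
      rw [co_eq]
      exact (SL.fderiv_base (T := Tᗮ) hΦv hΦd y _).1
    have e2 : fderiv ℝ ψ y (defect T (P y) u) =
        fderiv ℝ ψ y u - fderiv ℝ ψ y (P y (T.starProjection u)) := by
      rw [defect, ContinuousLinearMap.sub_apply, map_sub]
      congr 1
      · exact (SL.fderiv_base hψT hψd y _).1
      · exact (SL.fderiv_base hψT hψd y _).1
    rw [e1, e2]
    ring
  rw [integral_congr_ae h4] at h1
  -- integrability
  have hψ1 : Continuous (fderiv ℝ ψ) := hψ.continuous_fderiv (by norm_num)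
  have hΦ1 : Continuous (fderiv ℝ Φ) := hΦ.continuous_fderiv (by norm_num)
  have j1 : Integrable (fun y => Φ y * fderiv ℝ ψ y u) ν := by
    refine Integrable.mono' (integrable_const (b0 * (a1 * ‖u‖)))
      (hΦ.continuous.mul (hψ1.clm_apply continuous_const)).aestronglyMeasurable ?_
    filter_upwards [hb0] with y hy0
    rw [norm_mul]
    by_cases hyA : y ∈ A
    · have := (fderiv ℝ ψ y).le_opNorm u
      exact mul_le_mul (hy0 hyA) (this.trans (by gcongr; exact ha1 y)) (norm_nonneg _) hb00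
    · rw [(h0 y hyA).2]
      simp only [ContinuousLinearMap.zero_apply, norm_zero, mul_zero]
      positivity
  have hm1 : AEStronglyMeasurable (fun y => ψ y * fderiv ℝ Φ y (co T (P y (T.starProjection u))) -
        Φ y * fderiv ℝ ψ y (defect T (P y) u)) ν := by
    have hJ : Continuous fun q : (E →L[ℝ] E) × E =>
        ψ q.2 * fderiv ℝ Φ q.2 (co T (q.1 (T.starProjection u))) -
        Φ q.2 * fderiv ℝ ψ q.2 (defect T q.1 u) := by
      have hc1 : Continuous fun q : (E →L[ℝ] E) × E => fderiv ℝ Φ q.2 := hΦ1.comp continuous_snd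
      have hc2 : Continuous fun q : (E →L[ℝ] E) × E => fderiv ℝ ψ q.2 := hψ1.comp continuous_snd
      have hc3 : Continuous fun q : (E →L[ℝ] E) × E => ψ q.2 := hψ.continuous.comp continuous_snd
      have hc4 : Continuous fun q : (E →L[ℝ] E) × E => Φ q.2 := hΦ.continuous.comp continuous_snd
      have hc5 : Continuous fun q : (E →L[ℝ] E) × E => co T (q.1 (T.starProjection u)) := by
        fun_prop
      have hc6 : Continuous fun q : (E →L[ℝ] E) × E => defect T q.1 u := by
        have : (fun q : (E →L[ℝ] E) × E => defect T q.1 u) =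
          fun q => T.starProjection u - T.starProjection (q.1 (T.starProjection u)) := rfl
        rw [this]
        fun_prop
      exact (hc3.mul (hc1.clm_apply hc5)).sub (hc4.mul (hc2.clm_apply hc6))
    exact hC.aesm hJ
  have hbd : ∀ᵐ y ∂ν, |ψ y * fderiv ℝ Φ y (co T (P y (T.starProjection u))) -
        Φ y * fderiv ℝ ψ y (defect T (P y) u)| ≤
      A.indicator (fun y => ‖u‖ * (b0 * a1 * tilt T (P y) + b1 * a0 * √(tilt T (P y)))) y := by
    filter_upwards [hC.proj, hb0, hb1] with y hy hy0 hy1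
    obtain ⟨S, hS, hP⟩ := hy
    by_cases hyA : y ∈ A
    · rw [indicator_of_mem hyA, hP]
      have ht0 := tilt_nonneg S T
      have f1 : |ψ y * fderiv ℝ Φ y (co T (S.starProjection (T.starProjection u)))| ≤
          a0 * (b1 * (√(tilt T S.starProjection) * ‖u‖)) := by
        rw [abs_mul]
        refine mul_le_mul (ha0 y) ?_ (abs_nonneg _) ha00
        rw [← Real.norm_eq_abs]
        refine ((fderiv ℝ Φ y).le_opNorm _).trans ?_
        refine mul_le_mul (hy1 hyA) ?_ (norm_nonneg _) hb10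
        have g1 := norm_sq_co_star_le S T (T.starProjection u)
        have g2 := norm_star_le T u
        refine abs_le_of_sq_le_sq' ?_ (by positivity) |>.2
        rw [mul_pow, Real.sq_sqrt ht0]
        exact g1.trans (by gcongr)
      have f2 : |Φ y * fderiv ℝ ψ y (defect T S.starProjection u)| ≤
          b0 * (a1 * (tilt T S.starProjection * ‖u‖)) := by
        rw [abs_mul]
        refine mul_le_mul (hy0 hyA) ?_ (abs_nonneg _) hb00
        rw [← Real.norm_eq_abs]
        refine ((fderiv ℝ ψ y).le_opNorm _).trans ?_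
        refine mul_le_mul (ha1 y) ?_ (norm_nonneg _) ha10
        exact norm_defect_le (by rw [hS, hC.dimT]) u
      calc _ ≤ _ := abs_sub _ _
        _ ≤ a0 * (b1 * (√(tilt T S.starProjection) * ‖u‖)) +
          b0 * (a1 * (tilt T S.starProjection * ‖u‖)) := add_le_add f1 f2
        _ = _ := by ring
    · rw [indicator_of_notMem hyA, (h0 y hyA).1, (h0 y hyA).2]
      simp
  have j3 : Integrable (fun y => ‖u‖ * (b0 * a1 * tilt T (P y) + b1 * a0 * √(tilt T (P y)))) ν :=
    (((integrable_tilt hC).const_mul _).add ((integrable_sqrt_tilt hC).const_mul _)).const_mul _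
  have j2 : Integrable (fun y => ψ y * fderiv ℝ Φ y (co T (P y (T.starProjection u))) -
        Φ y * fderiv ℝ ψ y (defect T (P y) u)) ν := by
    refine Integrable.mono' (j3.indicator hA) hm1 ?_
    filter_upwards [hbd] with y hy
    exact hy
  rw [integral_add j2 j1] at h1
  have h5 : ∫ y, Φ y * fderiv ℝ ψ y u ∂ν = -∫ y, (ψ y * fderiv ℝ Φ y (co T (P y (T.starProjection u))) -
        Φ y * fderiv ℝ ψ y (defect T (P y) u)) ∂ν := by linarith
  rw [h5, abs_neg]
  refine (abs_integral_le_set hA hbd j3).trans (le_of_eq ?_)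
  rw [integral_const_mul, integral_add ((integrable_tilt hC).integrableOn.const_mul _)
    ((integrable_sqrt_tilt hC).integrableOn.const_mul _), integral_const_mul, integral_const_mul]

/-- **second order estimate** -/
theorem second_le (hC : CylStat m T G h ν P) {ψ Φ : E → ℝ} (hψ : ContDiff ℝ 2 ψ)
    (hψT : ∀ y, ψ (T.starProjection y) = ψ y) (hb : BaseCpt T G ψ) (hΦ : ContDiff ℝ 2 Φ)
    (hΦv : ∀ y, Φ (Tᗮ.starProjection y) = Φ y) {A : Set E} (hA : MeasurableSet A)
    (h0 : ∀ y, y ∉ A → ψ y = 0 ∧ fderiv ℝ (fderiv ℝ ψ) y = 0) {a0 a2 b0 b2 : ℝ}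
    (hb00 : 0 ≤ b0) (hb20 : 0 ≤ b2)
    (ha0 : ∀ y, |ψ y| ≤ a0) (ha2 : ∀ y, ‖fderiv ℝ (fderiv ℝ ψ) y‖ ≤ a2)
    (hb0 : ∀ᵐ y ∂ν, y ∈ A → |Φ y| ≤ b0)
    (hb2 : ∀ᵐ y ∂ν, y ∈ A → ‖fderiv ℝ (fderiv ℝ Φ) y‖ ≤ b2) :
    |∫ y, Φ y * SL.lapT T ψ y ∂ν| ≤ (b0 * a2 + b2 * a0) * ∫ y in A, tilt T (P y) ∂ν := by
  have hfin := hC.fin
  have ha00 : 0 ≤ a0 := (abs_nonneg _).trans (ha0 0)
  have ha20 : 0 ≤ a2 := le_trans (norm_nonneg (fderiv ℝ (fderiv ℝ ψ) 0)) (ha2 0)
  have h1 := hC.second hψ hΦ hb
  have hψ2 : Continuous (fderiv ℝ (fderiv ℝ ψ)) :=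
    (hψ.fderiv_right (m := 1) (by norm_num)).continuous_fderiv (by norm_num)
  have hlapc : Continuous (SL.lapT T ψ) := by
    unfold SL.lapT
    refine continuous_finsetSum _ fun k _ => ?_
    exact (hψ2.clm_apply continuous_const).clm_apply continuous_const
  have hlap : ∀ y, |SL.lapT T ψ y| ≤ Module.finrank ℝ E * a2 := by
    intro y
    have := SL.lapP_le ψ (B := T.starProjection) (T.starProjection_norm_le) y
    refine (show |SL.lapT T ψ y| = ‖SL.lapP ψ T.starProjection y‖ from rfl).le.trans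
      (this.trans ?_)
    gcongr
    exact ha2 y
  have j1 : Integrable (fun y => Φ y * SL.lapT T ψ y) ν := by
    refine Integrable.mono' (integrable_const (b0 * (Module.finrank ℝ E * a2)))
      (hΦ.continuous.mul hlapc).aestronglyMeasurable ?_
    filter_upwards [hb0] with y hy0
    rw [norm_mul]
    by_cases hyA : y ∈ A
    · exact mul_le_mul (hy0 hyA) (hlap y) (norm_nonneg _) hb00
    · have g1 : SL.lapT T ψ y = 0 := by simp [SL.lapT, (h0 y hyA).2]
      rw [g1, norm_zero, mul_zero]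
      positivity
  have j2 : Integrable (fun y => ψ y * hess Φ (P y) y) ν :=
    hC.integrable_prod₁ (φ := ψ) (W := grad Φ) hψ.continuous (contDiff_grad hΦ) hb
  have hd1 : Integrable (fun y => (b0 * a2 + b2 * a0) * tilt T (P y)) ν :=
    (integrable_tilt hC).const_mul _
  -- measurability of `Φ (hess ψ P - lapT ψ)`
  have hm3 : AEStronglyMeasurable (fun y => Φ y * (hess ψ (P y) y - SL.lapT T ψ y)) ν := by
    have hJ : Continuous fun q : (E →L[ℝ] E) × E => Φ q.2 * (hess ψ q.1 q.2 - SL.lapT T ψ q.2) := by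
      have hc1 : Continuous fun q : (E →L[ℝ] E) × E => hess ψ q.1 q.2 := by
        have h2 : (fun q : (E →L[ℝ] E) × E => hess ψ q.1 q.2) = fun q =>
            ∑ k, fderiv ℝ (fderiv ℝ ψ) q.2 (q.1 (stdOrthonormalBasis ℝ E k))
              (stdOrthonormalBasis ℝ E k) := funext fun q => SL.hess_eq hψ q.1 q.2
        rw [h2]
        refine continuous_finsetSum _ fun k _ => ?_
        exact ((hψ2.comp continuous_snd).clm_apply
          (continuous_fst.clm_apply continuous_const)).clm_apply continuous_const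
      exact (hΦ.continuous.comp continuous_snd).mul (hc1.sub (hlapc.comp continuous_snd))
    exact hC.aesm hJ
  have hb3 : ∀ᵐ y ∂ν, |Φ y * (hess ψ (P y) y - SL.lapT T ψ y)| ≤ b0 * (a2 * tilt T (P y)) := by
    filter_upwards [hC.proj, hb0] with y hy hy0
    obtain ⟨S, hS, hP⟩ := hy
    have g2 := tilt_nonneg S T
    by_cases hyA : y ∈ A
    · rw [hP, abs_mul]
      have g1 := abs_hess_base_sub_le (S := S) (T := T) (by rw [hS, hC.dimT]) hψ hψT y
      refine mul_le_mul (hy0 hyA) (g1.trans ?_) (abs_nonneg _) hb00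
      gcongr
      exact ha2 y
    · have g1 : SL.lapT T ψ y = 0 := by simp [SL.lapT, (h0 y hyA).2]
      have g3 : hess ψ (P y) y = 0 := by
        rw [SL.hess_eq hψ]
        simp [(h0 y hyA).2]
      rw [g1, g3, hP]
      simp only [sub_zero, mul_zero, abs_zero]
      positivity
  have j3 : Integrable (fun y => Φ y * (hess ψ (P y) y - SL.lapT T ψ y)) ν := by
    refine Integrable.mono' (((integrable_tilt hC).const_mul a2).const_mul b0) hm3 ?_
    filter_upwards [hb3] with y hy using hy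
  have e1 : ∫ y, Φ y * SL.lapT T ψ y ∂ν =
      ∫ y, (ψ y * hess Φ (P y) y - Φ y * (hess ψ (P y) y - SL.lapT T ψ y)) ∂ν := by
    rw [integral_sub j2 j3, h1]
    have e2 : ∫ y, Φ y * hess ψ (P y) y ∂ν =
        ∫ y, (Φ y * (hess ψ (P y) y - SL.lapT T ψ y) + Φ y * SL.lapT T ψ y) ∂ν :=
      integral_congr_ae (Eventually.of_forall fun y => by simp only; ring)
    rw [e2, integral_add j3 j1]
    ring
  rw [e1, ← integral_const_mul]
  refine abs_integral_le_set hA ?_ hd1
  filter_upwards [hC.proj, hb0, hb2] with y hy hy0 hy2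
  obtain ⟨S, hS, hP⟩ := hy
  by_cases hyA : y ∈ A
  · rw [indicator_of_mem hyA, hP]
    have g1 := abs_hess_base_sub_le (S := S) (T := T) (by rw [hS, hC.dimT]) hψ hψT y
    have g2 := abs_hess_vert_le (S := S) (T := T) hΦ hΦv y
    have g3 := tilt_nonneg S T
    calc |ψ y * hess Φ S.starProjection y - Φ y * (hess ψ S.starProjection y - SL.lapT T ψ y)|
        ≤ |ψ y * hess Φ S.starProjection y| +
          |Φ y * (hess ψ S.starProjection y - SL.lapT T ψ y)| := abs_sub _ _
      _ ≤ a0 * (b2 * tilt T S.starProjection) + b0 * (a2 * tilt T S.starProjection) := by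
          rw [abs_mul, abs_mul]
          refine add_le_add ?_ ?_
          · refine mul_le_mul (ha0 y) (g2.trans ?_) (abs_nonneg _) ha00
            gcongr
            exact hy2 hyA
          · refine mul_le_mul (hy0 hyA) (g1.trans ?_) (abs_nonneg _) hb00
            gcongr
            exact ha2 y
      _ = _ := by ring
  · rw [indicator_of_notMem hyA, (h0 y hyA).1]
    have g1 : SL.lapT T ψ y = 0 := by simp [SL.lapT, (h0 y hyA).2]
    have g2 : hess ψ (P y) y = 0 := by
      rw [SL.hess_eq hψ]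
      simp [(h0 y hyA).2]
    rw [g1, g2]
    simp

end Vale.Agent.P214.CLS
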