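import Vale.Agent.P214.CLS.Var

/-!
# P214, block CLS, part 3: vertical windows and base kernels
-/

open Set Filter Topology MeasureTheory Metric
open scoped RealInnerProductSpace

set_option linter.all false

namespace Vale.Agent.P214.CLS

open Vale.Agent.P214.FV

variable {E : Type*} [NormedAddCommGroup E] [InnerProductSpace ℝ E] [FiniteDimensional ℝ E]

/-- vertical window of radius `R` (plateau) to `2R` (support) around `c` -/
structure VW (T : Submodule ℝ E) (c : E) (R A : ℝ) (η : E → ℝ) : Prop where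
  smooth : ContDiff ℝ 2 η
  vert : ∀ y, η (Tᗮ.starProjection y) = η y
  nonneg : ∀ y, 0 ≤ η y
  le_one : ∀ y, η y ≤ 1
  n1 : ∀ y, ‖fderiv ℝ η y‖ ≤ A / R
  n2 : ∀ y, ‖fderiv ℝ (fderiv ℝ η) y‖ ≤ A / R ^ 2
  supp : ∀ y, 2 * R ≤ ‖hgt T c y‖ → η y = 0
  one : ∀ y, ‖hgt T c y‖ ≤ R → η y = 1

/-- base kernel -/
structure BK (T : Submodule ℝ E) (A : ℝ) (K : E → ℝ) : Prop where
  smooth : ContDiff ℝ 2 K
  base : ∀ y, K (T.starProjection y) = K y
  nonneg : ∀ y, 0 ≤ K y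
  le_one : ∀ y, K y ≤ 1
  n1 : ∀ y, ‖fderiv ℝ K y‖ ≤ A
  n2 : ∀ y, ‖fderiv ℝ (fderiv ℝ K) y‖ ≤ A
  supp : ∀ y, 1 ≤ ‖T.starProjection y‖ → K y = 0
  low : ∀ y, ‖T.starProjection y‖ ≤ 1 / 2 → 27 / 64 ≤ K y

/-- a fixed bump on `E` with bounds -/
lemma exists_cut (E : Type*) [NormedAddCommGroup E] [InnerProductSpace ℝ E]
    [FiniteDimensional ℝ E] : ∃ A : ℝ, 1 ≤ A ∧ ∃ f : E → ℝ, ContDiff ℝ 2 f ∧ (∀ u, 0 ≤ f u) ∧
      (∀ u, f u ≤ 1) ∧ (∀ u, ‖u‖ ≤ 1 → f u = 1) ∧ (∀ u, 2 ≤ ‖u‖ → f u = 0) ∧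
      (∀ u, ‖fderiv ℝ f u‖ ≤ A) ∧ ∀ u, ‖fderiv ℝ (fderiv ℝ f) u‖ ≤ A := by
  let f : ContDiffBump (0 : E) := ⟨1, 2, one_pos, one_lt_two⟩
  have hf : ContDiff ℝ 2 f := f.contDiff
  have hc : HasCompactSupport f := f.hasCompactSupport
  obtain ⟨C1, hC1⟩ := (hf.continuous_fderiv (by norm_num)).bounded_above_of_compact_support
    (hc.fderiv (𝕜 := ℝ))
  obtain ⟨C2, hC2⟩ := ((hf.fderiv_right (m := 1) (by norm_num)).continuous_fderiv
    (by norm_num)).bounded_above_of_compact_support ((hc.fderiv (𝕜 := ℝ)).fderiv (𝕜 := ℝ))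
  refine ⟨max 1 (max C1 C2), le_max_left _ _, f, hf, fun u => f.nonneg, fun u => f.le_one,
    fun u hu => f.one_of_mem_closedBall (by simpa using hu),
    fun u hu => f.zero_of_le_dist (by simpa using hu), fun u => (hC1 u).trans ?_,
    fun u => (hC2 u).trans ?_⟩
  · exact (le_max_left _ _).trans (le_max_right _ _)
  · exact (le_max_right _ _).trans (le_max_right _ _)

/-- derivative bounds of `f (a • (L y - c))` -/
lemma affine_bounds {f : E → ℝ} (hf : ContDiff ℝ 2 f) {A : ℝ}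
    (h1 : ∀ u, ‖fderiv ℝ f u‖ ≤ A) (h2 : ∀ u, ‖fderiv ℝ (fderiv ℝ f) u‖ ≤ A) {L : E →L[ℝ] E}
    (hL : ‖L‖ ≤ 1) (a : ℝ) (c : E) :
    ContDiff ℝ 2 (fun y => f (a • (L y - c))) ∧
    (∀ y, ‖fderiv ℝ (fun y => f (a • (L y - c))) y‖ ≤ A * |a|) ∧
    ∀ y, ‖fderiv ℝ (fderiv ℝ (fun y => f (a • (L y - c)))) y‖ ≤ A * a ^ 2 := by
  have hA0 : 0 ≤ A := (norm_nonneg _).trans (h1 0)
  set v : E → E := fun y => a • (L y - c) with hv
  have hv2 : ContDiff ℝ 2 v := contDiff_const.smul (L.contDiff.sub contDiff_const)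
  have hvd : ∀ y, HasFDerivAt v (a • L) y := fun y =>
    (L.hasFDerivAt.sub_const c).const_smul a
  have hv1 : fderiv ℝ v = fun _ => a • L := funext fun y => (hvd y).fderiv
  have hn : ∀ u, ‖(a • L) u‖ ≤ |a| * ‖u‖ := by
    intro u
    rw [ContinuousLinearMap.smul_apply, norm_smul, Real.norm_eq_abs]
    have := L.le_opNorm u
    have : ‖L u‖ ≤ ‖u‖ := this.trans (by nlinarith [norm_nonneg u])
    gcongr
  refine ⟨hf.comp hv2, fun y => ?_, fun y => ?_⟩
  · have h3 : HasFDerivAt (fun y => f (v y)) ((fderiv ℝ f (v y)).comp (a • L)) y :=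
      ((hf.differentiable (by norm_num) (v y)).hasFDerivAt).comp y (hvd y)
    rw [h3.fderiv]
    refine ContinuousLinearMap.opNorm_le_bound _ (by positivity) fun u => ?_
    rw [ContinuousLinearMap.comp_apply]
    calc _ ≤ ‖fderiv ℝ f (v y)‖ * ‖(a • L) u‖ := ContinuousLinearMap.le_opNorm _ _
      _ ≤ A * (|a| * ‖u‖) := mul_le_mul (h1 _) (hn u) (norm_nonneg _) hA0
      _ = _ := by ring
  · refine ContinuousLinearMap.opNorm_le_bound₂ _ (by positivity) fun u z => ?_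
    rw [SL.fderiv_fderiv_comp hf hv2 y u z, hv1]
    simp only [fderiv_const_apply, ContinuousLinearMap.zero_apply, map_zero, add_zero]
    calc _ ≤ ‖fderiv ℝ (fderiv ℝ f) (v y)‖ * ‖(a • L) u‖ * ‖(a • L) z‖ :=
          ContinuousLinearMap.le_opNorm₂ _ _ _
      _ ≤ A * (|a| * ‖u‖) * (|a| * ‖z‖) := by
          refine mul_le_mul (mul_le_mul (h2 _) (hn u) (norm_nonneg _) hA0) (hn z) (norm_nonneg _)
            (by positivity)
      _ = A * a ^ 2 * ‖u‖ * ‖z‖ := by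
          rw [← sq_abs a]; ring

/-- existence of windows and kernels with a common constant -/
lemma exists_windows (E : Type*) [NormedAddCommGroup E] [InnerProductSpace ℝ E]
    [FiniteDimensional ℝ E] : ∃ A : ℝ, 1 ≤ A ∧ (∀ (T : Submodule ℝ E) (c : E) (R : ℝ), 0 < R →
      ∃ η, VW T c R A η) ∧ ∀ T : Submodule ℝ E, ∃ K, BK T A K := by
  obtain ⟨A, hA1, f, hf, hf0, hf1, hfo, hfz, hfd, hfd2⟩ := exists_cut E
  have hA0 : 0 < A := by linarith
  refine ⟨4 * A, by linarith, fun T c R hR => ?_, fun T => ?_⟩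
  · have hL : ‖co T‖ ≤ 1 := by
      rw [co_eq]; exact Tᗮ.starProjection_norm_le
    obtain ⟨g1, g2, g3⟩ := affine_bounds hf hfd hfd2 hL R⁻¹ c
    have hn : ∀ y, ‖R⁻¹ • (co T y - c)‖ = ‖hgt T c y‖ / R := by
      intro y
      rw [norm_smul, Real.norm_eq_abs, abs_of_pos (inv_pos.2 hR), hgt, inv_mul_eq_div]
    refine ⟨fun y => f (R⁻¹ • (co T y - c)), ⟨g1, fun y => ?_, fun y => hf0 _, fun y => hf1 _,
      fun y => (g2 y).trans ?_, fun y => (g3 y).trans ?_, fun y hy => ?_, fun y hy => ?_⟩⟩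
    · show f (R⁻¹ • (co T (Tᗮ.starProjection y) - c)) = f (R⁻¹ • (co T y - c))
      rw [← co_eq, co_self]
    · rw [abs_of_pos (inv_pos.2 hR), ← div_eq_mul_inv]
      gcongr
      linarith
    · rw [inv_pow, ← div_eq_mul_inv]
      gcongr
      linarith
    · refine hfz _ ?_
      rw [hn, le_div_iff₀ hR]
      exact hy
    · refine hfo _ ?_
      rw [hn, div_le_one hR]
      exact hy
  · have hL : ‖T.starProjection‖ ≤ 1 := T.starProjection_norm_le
    obtain ⟨g1, g2, g3⟩ := affine_bounds hf hfd hfd2 hL 2 0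
    have hn : ∀ y, ‖(2 : ℝ) • (T.starProjection y - 0)‖ = 2 * ‖T.starProjection y‖ := by
      intro y
      rw [norm_smul, sub_zero]
      norm_num
    refine ⟨fun y => f ((2 : ℝ) • (T.starProjection y - 0)), ⟨g1, fun y => ?_, fun y => hf0 _,
      fun y => hf1 _, fun y => (g2 y).trans ?_, fun y => (g3 y).trans ?_, fun y hy => ?_,
      fun y hy => ?_⟩⟩
    · show f ((2 : ℝ) • (T.starProjection (T.starProjection y) - 0)) =
        f ((2 : ℝ) • (T.starProjection y - 0))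
      rw [star_self]
    · rw [abs_of_pos (by norm_num : (0 : ℝ) < 2)]
      linarith
    · linarith
    · refine hfz _ ?_
      rw [hn]
      linarith
    · show 27 / 64 ≤ f ((2 : ℝ) • (T.starProjection y - 0))
      rw [hfo _ (by rw [hn]; linarith)]
      norm_num

/-! ### derivatives vanish off the support -/

lemma fderiv_zero_of_open {F : Type*} [NormedAddCommGroup F] [NormedSpace ℝ F] {g : E → F}
    {O : Set E} (hO : IsOpen O) (h0 : ∀ y ∈ O, g y = 0) {y : E} (hy : y ∈ O) :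
    fderiv ℝ g y = 0 ∧ fderiv ℝ (fderiv ℝ g) y = 0 := by
  have h1 : ∀ y ∈ O, fderiv ℝ g y = 0 := by
    intro y hy
    have : g =ᶠ[𝓝 y] fun _ => (0 : F) := by
      filter_upwards [hO.mem_nhds hy] with z hz using h0 z hz
    rw [this.fderiv_eq]
    simp
  refine ⟨h1 y hy, ?_⟩
  have : fderiv ℝ g =ᶠ[𝓝 y] fun _ => (0 : E →L[ℝ] F) := by
    filter_upwards [hO.mem_nhds hy] with z hz using h1 z hz
  rw [this.fderiv_eq]
  simp

/-! ### the weighted height components -/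

/-- `η ⟪e, hgt⟫` -/
noncomputable def wh (T : Submodule ℝ E) (c : E) (η : E → ℝ) (e : E) (y : E) : ℝ :=
  η y * ⟪e, hgt T c y⟫

section
variable {T : Submodule ℝ E} {c : E} {R A : ℝ} {η : E → ℝ}

lemma VW.hgt_vert (T : Submodule ℝ E) (c y : E) : hgt T c (Tᗮ.starProjection y) = hgt T c y := by
  rw [hgt, hgt, ← co_eq, co_self]

lemma VW.wh_vert (hη : VW T c R A η) (e y : E) :
    wh T c η e (Tᗮ.starProjection y) = wh T c η e y := by
  rw [wh, wh, hη.vert, VW.hgt_vert]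

lemma VW.contDiff_wh (hη : VW T c R A η) (e : E) : ContDiff ℝ 2 (wh T c η e) :=
  hη.smooth.mul (contDiff_const.inner ℝ (contDiff_hgt T c))

lemma VW.abs_le (hη : VW T c R A η) (y : E) : |η y| ≤ 1 := by
  rw [abs_of_nonneg (hη.nonneg y)]; exact hη.le_one y

lemma VW.abs_wh_le (hR : 0 < R) (hη : VW T c R A η) (e y : E) : |wh T c η e y| ≤ 2 * R * ‖e‖ := by
  rw [wh, abs_mul]
  by_cases hy : 2 * R ≤ ‖hgt T c y‖
  · rw [hη.supp y hy, abs_zero, zero_mul]
    positivity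
  · push Not at hy
    calc |η y| * |⟪e, hgt T c y⟫| ≤ 1 * (‖e‖ * (2 * R)) := by
          refine mul_le_mul (hη.abs_le y) ?_ (abs_nonneg _) zero_le_one
          exact (abs_real_inner_le_norm _ _).trans (by gcongr)
      _ = _ := by ring

lemma isOpen_far (T : Submodule ℝ E) (c : E) (R : ℝ) : IsOpen {y | 2 * R < ‖hgt T c y‖} :=
  isOpen_lt continuous_const (contDiff_hgt (n := 0) T c).continuous.norm

lemma hasFDerivAt_wh (hη : VW T c R A η) (e y : E) : HasFDerivAt (wh T c η e)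
    (η y • (innerSL ℝ e).comp (co T) + ⟪e, hgt T c y⟫ • fderiv ℝ η y) y := by
  have h1 := (hη.smooth.differentiable (by norm_num) y).hasFDerivAt
  have h2 : HasFDerivAt (fun y => ⟪e, hgt T c y⟫) ((innerSL ℝ e).comp (co T)) y :=
    (innerSL ℝ e).hasFDerivAt.comp y (hasFDerivAt_hgt T c y)
  exact h1.mul h2

lemma norm_inner_co_le (T : Submodule ℝ E) (e : E) : ‖(innerSL ℝ e).comp (co T)‖ ≤ ‖e‖ := by
  refine (ContinuousLinearMap.opNorm_comp_le _ _).trans ?_
  rw [innerSL_apply_norm]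
  have : ‖co T‖ ≤ 1 := by rw [co_eq]; exact Tᗮ.starProjection_norm_le
  nlinarith [norm_nonneg e]

lemma VW.norm_fderiv_wh_le (hR : 0 < R) (hA : 0 ≤ A) (hη : VW T c R A η) (e y : E) :
    ‖fderiv ℝ (wh T c η e) y‖ ≤ (1 + 2 * A) * ‖e‖ := by
  by_cases hy : 2 * R < ‖hgt T c y‖
  · have h0 : ∀ z ∈ {y | 2 * R < ‖hgt T c y‖}, wh T c η e z = 0 := by
      intro z hz
      rw [wh, hη.supp z (le_of_lt hz), zero_mul]
    rw [(fderiv_zero_of_open (isOpen_far T c R) h0 hy).1, norm_zero]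
    positivity
  · push Not at hy
    rw [(hasFDerivAt_wh hη e y).fderiv]
    refine (norm_add_le _ _).trans ?_
    rw [norm_smul, norm_smul]
    have h1 : ‖η y‖ ≤ 1 := hη.abs_le y
    have h2 : ‖⟪e, hgt T c y⟫‖ ≤ ‖e‖ * (2 * R) :=
      (abs_real_inner_le_norm _ _).trans (by gcongr)
    calc _ ≤ 1 * ‖e‖ + (‖e‖ * (2 * R)) * (A / R) := by
          refine add_le_add (mul_le_mul h1 (norm_inner_co_le T e) (norm_nonneg _) zero_le_one) ?_
          exact mul_le_mul h2 (hη.n1 y) (norm_nonneg _) (by positivity)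
      _ = _ := by field_simp

lemma VW.norm_fderiv2_wh_le (hR : 0 < R) (hA : 0 ≤ A) (hη : VW T c R A η) (e y : E) :
    ‖fderiv ℝ (fderiv ℝ (wh T c η e)) y‖ ≤ (4 * A / R) * ‖e‖ := by
  by_cases hy : 2 * R < ‖hgt T c y‖
  · have h0 : ∀ z ∈ {y | 2 * R < ‖hgt T c y‖}, wh T c η e z = 0 := by
      intro z hz
      rw [wh, hη.supp z (le_of_lt hz), zero_mul]
    rw [(fderiv_zero_of_open (isOpen_far T c R) h0 hy).2]
    refine (norm_zero (E := E →L[ℝ] E →L[ℝ] ℝ)).le.trans ?_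
    positivity
  · push Not at hy
    have h1 : fderiv ℝ (wh T c η e) = fun y =>
        η y • (innerSL ℝ e).comp (co T) + ⟪e, hgt T c y⟫ • fderiv ℝ η y :=
      funext fun y => (hasFDerivAt_wh hη e y).fderiv
    set L := (innerSL ℝ e).comp (co T) with hL
    have d1 := (hη.smooth.differentiable (by norm_num) y).hasFDerivAt
    have d2 : HasFDerivAt (fun y => ⟪e, hgt T c y⟫) L y :=
      (innerSL ℝ e).hasFDerivAt.comp y (hasFDerivAt_hgt T c y)
    have d3 : HasFDerivAt (fderiv ℝ η) (fderiv ℝ (fderiv ℝ η) y) y :=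
      ((hη.smooth.fderiv_right (m := 1) (by norm_num)).differentiable (by norm_num)
        y).hasFDerivAt
    have d4 : HasFDerivAt (fun y => η y • L) ((fderiv ℝ η y).smulRight L) y :=
      d1.smul_const L
    have d5 := d2.smul d3
    have d6 := d4.add d5
    rw [h1]
    have d7 : fderiv ℝ (fun y => η y • L + ⟪e, hgt T c y⟫ • fderiv ℝ η y) y = _ := d6.fderiv
    rw [d7]
    have e1 : ‖fderiv ℝ η y‖ ≤ A / R := hη.n1 y
    have e2 : ‖fderiv ℝ (fderiv ℝ η) y‖ ≤ A / R ^ 2 := hη.n2 y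
    have e3 : ‖L‖ ≤ ‖e‖ := norm_inner_co_le T e
    have e4 : ‖⟪e, hgt T c y⟫‖ ≤ ‖e‖ * (2 * R) :=
      (abs_real_inner_le_norm _ _).trans (by gcongr)
    refine ContinuousLinearMap.opNorm_le_bound₂ _ (by positivity) fun u z => ?_
    have f1 : |fderiv ℝ η y u| ≤ A / R * ‖u‖ := by
      rw [← Real.norm_eq_abs]
      exact ((fderiv ℝ η y).le_opNorm u).trans (by gcongr)
    have f2 : |fderiv ℝ η y z| ≤ A / R * ‖z‖ := by
      rw [← Real.norm_eq_abs]
      exact ((fderiv ℝ η y).le_opNorm z).trans (by gcongr)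
    have f3 : |L u| ≤ ‖e‖ * ‖u‖ := by
      rw [← Real.norm_eq_abs]
      exact (L.le_opNorm u).trans (by gcongr)
    have f4 : |L z| ≤ ‖e‖ * ‖z‖ := by
      rw [← Real.norm_eq_abs]
      exact (L.le_opNorm z).trans (by gcongr)
    have f5 : |fderiv ℝ (fderiv ℝ η) y u z| ≤ A / R ^ 2 * ‖u‖ * ‖z‖ := by
      rw [← Real.norm_eq_abs]
      refine (ContinuousLinearMap.le_opNorm₂ _ _ _).trans ?_
      gcongr
    simp only [ContinuousLinearMap.add_apply, ContinuousLinearMap.smulRight_apply,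
      ContinuousLinearMap.smul_apply, smul_eq_mul, Real.norm_eq_abs]
    calc _ ≤ |fderiv ℝ η y u * L z| + (|⟪e, hgt T c y⟫ * fderiv ℝ (fderiv ℝ η) y u z| +
          |L u * fderiv ℝ η y z|) := by
          refine (abs_add_le _ _).trans (add_le_add le_rfl ?_)
          refine (abs_add_le _ _).trans (le_of_eq ?_)
          ring_nf
      _ ≤ (A / R * ‖u‖) * (‖e‖ * ‖z‖) + ((‖e‖ * (2 * R)) * (A / R ^ 2 * ‖u‖ * ‖z‖) +
          (‖e‖ * ‖u‖) * (A / R * ‖z‖)) := by
          rw [abs_mul, abs_mul, abs_mul]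
          refine add_le_add (mul_le_mul f1 f4 (abs_nonneg _) (by positivity)) (add_le_add
            (mul_le_mul e4 f5 (abs_nonneg _) (by positivity))
            (mul_le_mul f3 f2 (abs_nonneg _) (by positivity)))
      _ = _ := by field_simp; ring

end

end Vale.Agent.P214.CLS
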